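import Vale.Agent.P267.H995.One
import Vale.Agent.P267.H205.P2d
import Vale.Agent.P267.H457.Chain
import Vale.Agent.P267.H823.PL6
import Vale.Agent.P267.H466.LBNF
import Vale.Agent.P267.H622.CovFacts
import Vale.Agent.P267.H662.CurvThm

/-!
# P267 (helper995): the degrees of the bundles `E_c` on the curves

`deg_formula` : if `φ` is an embedded projective line with norm function `Nc` and
`N_b = Nc * ∏_{j ∈ I} N_j`, then the degree of `E_c` on `φ` is `[c ∈ I] - [c = b]`.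
-/

set_option linter.unusedSectionVars false

open scoped Manifold ContDiff Topology
open MeasureTheory Set Filter
open Vale.Agent.P272.K (Cm)

noncomputable section

namespace Vale.Agent.P267.H995

open Vale.Agent.P267.FL Vale.Agent.P267.H158 Vale.Agent.P267.XT Vale.Agent.P267.H338
open Vale.Agent.P267.BlockC Vale.Agent.P267.RR Vale.Agent.P267.LineX Vale.Agent.P267.H757
open Vale.Agent.P267.H332 (cF cF_smooth cF_mul)
open Vale.Agent.P267.H205.P1 (degOn)

section basic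

variable {X : Type} [TopologicalSpace X] [T2Space X] [ChartedSpace C2 X]
  [IsManifold 𝓘(ℂ, C2) ω X] {n : ℕ} (O : BlockOut X n) (b : Fin n × ℤ)

theorem isShift_bL : IsShift O.B.hh b.2 (O.E b.1).L (O.bL b) := by
  intro x
  change (O.E b.1).L.P (O.B.D.sh (-b.2) (Cov.shift b.2 x)) = _
  rw [H824.sh_eq_shift O.B.D O.B.γ_eq, ← Cov.shift_add, neg_add_cancel, Cov.shift_zero]

theorem hol_b : (O.bL b).IsHol (O.ba b) := (O.B.D.chartMap_sh (-b.2)).lb_isHol (O.cone b.1).hol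

theorem reg_ba : Reg1 ∞ 0 (O.ba b) := (hol_b O b).smooth

theorem reg_b : Reg0 ∞ 0 (O.bα b) :=
  (O.B.D.chartMap_sh (-b.2)).reg0_comp (O.cone b.1).α_reg

theorem sec_b : (O.bL b).Sec (O.bα b) := (O.B.D.chartMap_sh (-b.2)).lb_sec (O.cone b.1).α_sec

theorem db_b (x : Cov O.B.hh) (i : Fin 2) : (O.bL b).db0 (O.ba b) 0 (O.bα b) x i = 0 := by
  have h := (O.B.D.chartMap_sh (-b.2)).lb_db0 (O.E b.1).L (O.a b.1) 0 (O.α b.1) x
  have h2 : (O.bL b).db0 (O.ba b) 0 (O.bα b) x = (O.E b.1).L.db0 (O.a b.1) 0 (O.α b.1)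
      (O.B.D.sh (-b.2) x) := h
  rw [h2]
  exact (O.cone b.1).α_hol _ i

theorem dense_b : Dense {x | O.bα b x ≠ 0} := by
  have h1 : IsOpenMap (O.B.D.sh (-b.2)) := by
    have h2 : O.B.D.sh (-b.2) = Cov.shift (-b.2) :=
      funext fun x => H824.sh_eq_shift O.B.D O.B.γ_eq _ x
    rw [h2]
    exact (Cov.shift (-b.2)).isOpenMap
  exact (O.cone b.1).α_dense.preimage h1

/-- the norm function of `α_b` -/
theorem isNormFn_N : IsNormFn C2 (O.N b) :=
  (H466.lbnf (hol_b O b) (reg_b O b) (sec_b O b) (db_b O b) (dense_b O b)).1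

theorem cF_N : cF (O.N b) = (O.bL b).chern (O.ba b) :=
  (H466.lbnf (hol_b O b) (reg_b O b) (sec_b O b) (db_b O b) (dense_b O b)).2

theorem N_eq_zero {x : Cov O.B.hh} : O.N b x = 0 ↔ O.bα b x = 0 := by
  change ‖O.bα b x‖ ^ 2 = 0 ↔ _
  rw [sq_eq_zero_iff, norm_eq_zero]

end basic

section numbers

variable {X : Type} [TopologicalSpace X] [T2Space X] [CompactSpace X] [ChartedSpace C2 X]
  [IsManifold 𝓘(ℂ, C2) ω X] {n : ℕ} (O : BlockOut X n)

theorem cvf : CovFacts O.B.hh := covFacts (H662.curvFacts _) (covMapFacts _)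

theorem curv_bL (b : Fin n × ℤ) : (O.bL b).curv = shF b.2 (O.E b.1).L.curv :=
  (cvf O).curv_shift b.2 (O.E b.1) _ (isShift_bL O b)

theorem cs_E (i : Fin n) : CS (O.E i).L.curv := (cvf O).curv_CS _ _ _ (O.triv i)

theorem cs_bL (b : Fin n × ℤ) : CS (O.bL b).curv := by
  rw [curv_bL]
  exact (cs_E O b.1).sh b.2

theorem pi4_ne : (4 * (Real.pi : ℂ) ^ 2) ≠ 0 :=
  mul_ne_zero (by norm_num) (pow_ne_zero 2 (Complex.ofReal_ne_zero.2 Real.pi_ne_zero))

theorem pair_E (i j : Fin n) (k : ℤ) : pair (O.E i).L.curv (shF k (O.E j).L.curv) =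
    if i = j ∧ k = 0 then 4 * (Real.pi : ℂ) ^ 2 else 0 := by
  obtain ⟨L', hL'⟩ := (cvf O).exists_shift k (O.E j)
  have h1 := O.dot i j k L' hL'
  have h2 := (cvf O).curv_shift k (O.E j) L' hL'
  have h3 : isec (O.E i).L L' = -(1 / (4 * (Real.pi : ℂ) ^ 2)) *
    pair (O.E i).L.curv L'.curv := rfl
  have h4 := pi4_ne
  rw [← h2]
  rw [h3] at h1
  split_ifs with hij
  · rw [if_pos hij] at h1
    field_simp at h1
    linear_combination -h1
  · rw [if_neg hij] at h1
    rcases mul_eq_zero.1 h1 with h5 | h5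
    · exact absurd h5 (neg_ne_zero.2 (one_div_ne_zero h4))
    · exact h5

/-- the intersection matrix of the translates -/
theorem pair_bL (b c : Fin n × ℤ) : pair (O.bL b).curv (O.bL c).curv =
    if b = c then 4 * (Real.pi : ℂ) ^ 2 else 0 := by
  have h1 : (O.bL c).curv = shF b.2 (shF (c.2 - b.2) (O.E c.1).L.curv) := by
    rw [curv_bL, shF_shF, add_sub_cancel]
  rw [h1, curv_bL, (cvf O).pair_sh _ _ _ ((cvf O).curv_smooth _)
    ((cvf O).smooth_sh _ _ ((cvf O).curv_smooth _)) (cs_E O _), pair_E]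
  congr 1
  rw [Prod.ext_iff, sub_eq_zero]
  exact propext (and_congr Iff.rfl eq_comm)

/-- the same with the curvature of the norm function -/
theorem pair_cF_N (b c : Fin n × ℤ) : pair (O.bL c).curv (cF (O.N b)) =
    if b = c then 4 * (Real.pi : ℂ) ^ 2 else 0 := by
  rw [cF_N, H662.chern_eq, (cvf O).pair_add' _ _ _ ((cvf O).curv_smooth ⟨_, O.bL c⟩)
    ((cvf O).curv_smooth ⟨_, O.bL b⟩) ((cvf O).smooth_d _ (H662.imA_smooth (reg_ba O b)))
    (cs_bL O c), (cvf O).pair_d _ _ (H662.imA_smooth (reg_ba O b))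
    ((cvf O).curv_smooth ⟨_, O.bL c⟩) ((cvf O).curv_closed ⟨_, O.bL c⟩) (cs_bL O c), add_zero,
    pair_bL]
  simp only [eq_comm]

variable {O}

theorem cF_mul' {N N' : Cov O.B.hh → ℝ} (h : IsNormFn C2 N) (h' : IsNormFn C2 N') :
    cF (fun x => N x * N' x) = cF N + cF N' := by
  have h1 : (cF fun x => N x * N' x).f11 = (cF N).f11 + (cF N').f11 :=
    funext fun x => cF_mul h h' x
  have h2 : cF (fun x => N x * N' x) = ⟨fun _ => 0, (cF N).f11 + (cF N').f11, fun _ => 0⟩ := by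
    rw [← h1]
    rfl
  rw [h2]
  have h3 : cF N + cF N' = ⟨(fun _ => 0) + fun _ => 0, (cF N).f11 + (cF N').f11,
    (fun _ => 0) + fun _ => 0⟩ := rfl
  rw [h3]
  congr 1
  · funext x; simp
  · funext x; simp

theorem cF_one : cF (fun _ : Cov O.B.hh => (1 : ℝ)) = 0 := by
  have h1 : (cF fun _ : Cov O.B.hh => (1 : ℝ)).f11 = 0 := by
    funext x
    exact H823.PL.curvN_const one_pos isNormFn_one (Eventually.of_forall fun _ => rfl)
  have h2 : cF (fun _ : Cov O.B.hh => (1 : ℝ)) = ⟨fun _ => 0,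
    (cF fun _ : Cov O.B.hh => (1 : ℝ)).f11, fun _ => 0⟩ := rfl
  rw [h2, h1]
  rfl

/-- additivity over products -/
theorem pair_cF_prod {G : TwoF (Cov O.B.hh)} (hG : G.Smooth) (hc : CS G) {β : Type*}
    (I : Finset β) {N : β → Cov O.B.hh → ℝ} (hN : ∀ j, IsNormFn C2 (N j)) :
    pair G (cF fun x => ∏ j ∈ I, N j x) = ∑ j ∈ I, pair G (cF (N j)) := by
  classical
  induction I using Finset.induction_on with
  | empty =>
    simp only [Finset.prod_empty, Finset.sum_empty]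
    rw [cF_one]
    have h1 : (0 : TwoF (Cov O.B.hh)) = (0 : ℂ) • (0 : TwoF (Cov O.B.hh)) := by
      rw [zero_smul]
    rw [h1, (cvf O).pair_smul' _ _ _ hG (cvf O).smooth_zero hc, zero_mul]
  | insert a s ha ih =>
    have h1 : (fun x => ∏ j ∈ insert a s, N j x) = fun x => N a x * ∏ j ∈ s, N j x := by
      funext x
      rw [Finset.prod_insert ha]
    rw [h1, Finset.sum_insert ha, ← ih, cF_mul' (hN a) (isNormFn_prod s fun i _ => hN i),
      (cvf O).pair_add' _ _ _ hG (cF_smooth (hN a))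
        (cF_smooth (isNormFn_prod s fun i _ => hN i)) hc]

theorem isCompact_supp2 {G : TwoF (Cov O.B.hh)} (hc : CS G) : IsCompact (H332.supp2 G) := by
  obtain ⟨R, hR⟩ := hc
  refine (isCompact_band (h := O.B.hh) R).of_isClosed_subset isClosed_closure
    (closure_minimal ?_ ?_)
  · intro x hx
    by_contra hcon
    obtain ⟨h1, h2, h3⟩ := hR x (le_of_lt (not_le.1 hcon))
    rcases hx with h | h | h
    · exact h h1
    · exact h h2
    · exact h h3
  · exact isClosed_le (Cov.continuous_f (h := O.B.hh)).abs continuous_const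

variable (O)

/-- **The degrees.** -/
theorem deg_formula (φ : EmbP1 (Cov O.B.hh)) {Nc : Cov O.B.hh → ℝ} (hN : IsNormFn C2 Nc)
    (hz : ∀ x, Nc x = 0 ↔ x ∈ φ.image)
    (hred : ∀ x, x ∈ φ.image → ∃ U g ψ, x ∈ U ∧ LocRep C2 Nc U g ψ ∧
      mfderiv 𝓘(ℂ, C2) 𝓘(ℂ) g x ≠ 0) {b : Fin n × ℤ} {I : Finset (Fin n × ℤ)}
    (hfact : ∀ x, O.N b x = Nc x * ∏ j ∈ I, O.N j x) (c : Fin n × ℤ) :
    degOn (O.bL c) (reg_ba O c) φ.toP1Map = (if c ∈ I then 1 else 0) - if c = b then 1 else 0 := by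
  classical
  have : SigmaCompactSpace (Cov O.B.hh) := sigmaCompact_cov
  set G := (O.bL c).curv with hG
  have hGs : G.Smooth := (cvf O).curv_smooth ⟨_, O.bL c⟩
  have hGc : G.Closed := (cvf O).curv_closed ⟨_, O.bL c⟩
  have hcs : CS G := cs_bL O c
  have h1 := (H823.PL.poincare_lelong_P1 φ hN hz (fun p hp => hred p ((hz p).1 hp)) hGs hGc
    (isCompact_supp2 hcs)).2
  have h2 := (H205.P1.integral_pbC_curv (O.bL c) (reg_ba O c) φ.toP1Map).2
  have h3 : cF (O.N b) = cF Nc + cF fun x => ∏ j ∈ I, O.N j x := by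
    rw [← cF_mul' hN (isNormFn_prod I fun i _ => isNormFn_N O i)]
    congr 1
    funext x
    exact hfact x
  have h4 := pair_cF_N O b c
  rw [h3, (cvf O).pair_add' _ _ _ hGs (cF_smooth hN)
    (cF_smooth (isNormFn_prod I fun i _ => isNormFn_N O i)) hcs,
    pair_cF_prod hGs hcs I fun j => isNormFn_N O j] at h4
  have h8 : ∀ i, pair G (cF (O.N i)) = if i = c then 4 * (Real.pi : ℂ) ^ 2 else 0 :=
    fun i => pair_cF_N O i c
  simp only [h8, Finset.sum_ite_eq'] at h4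
  have h5 : pair G (cF Nc) = intX ((cF Nc).wedge G) := by rw [BlockC.pair_comm]; rfl
  rw [h5, h1, h2] at h4
  have hpi : (Real.pi : ℂ) ≠ 0 := Complex.ofReal_ne_zero.2 Real.pi_ne_zero
  have h6 : ((degOn (O.bL c) (reg_ba O c) φ.toP1Map : ℤ) : ℂ) =
      (if c ∈ I then 1 else 0) - if b = c then 1 else 0 := by
    have h9 : (4 * (Real.pi : ℂ) ^ 2) * (((degOn (O.bL c) (reg_ba O c) φ.toP1Map : ℤ) : ℂ) -
        ((if c ∈ I then 1 else 0) - if b = c then 1 else 0)) = 0 := by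
      split_ifs at h4 ⊢ <;> linear_combination -h4
    exact sub_eq_zero.1 ((mul_eq_zero.1 h9).resolve_left pi4_ne)
  simp only [eq_comm (a := c) (b := b)]
  exact_mod_cast h6

end numbers

end Vale.Agent.P267.H995
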