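import Vale.Agent.P267.H995.Numb
import Vale.Agent.P267.H205.Fact

/-!
# P267 (helper995): the numerical input of the geometry, from `H205.Fact`
-/

set_option linter.unusedSectionVars false

open scoped Manifold ContDiff Topology
open Set Filter
open Vale.Agent.P272.K (Cm)

noncomputable section

namespace Vale.Agent.P267.H995

open Vale.Agent.P267.FL Vale.Agent.P267.H158 Vale.Agent.P267.XT Vale.Agent.P267.H338
open Vale.Agent.P267.LineX Vale.Agent.P267.H757
open Vale.Agent.P267.H205.P1 (degOn)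

variable {X : Type} [TopologicalSpace X] [T2Space X] [CompactSpace X] [ChartedSpace C2 X]
  [IsManifold 𝓘(ℂ, C2) ω X] {n : ℕ} {O : BlockOut X n}

/-- the same, from `H205.Fact` -/
theorem cnt_of_fact (F : H205.Fact O) (e : Fin n × ℤ ≃ ℤ) {s : ℤ → ℕ}
    (hs : ∀ l, 1 ≤ s l)
    (hI : ∀ b j, j ∈ F.I b ↔ e b - s (e b) ≤ e j ∧ e j ≤ e b - 1)
    (hne : ∀ i l, i < l → ∃ x ∈ (F.C (e.symm l)).image, O.N (e.symm i) x ≠ 0) :
    Cnt s (fun l => F.C (e.symm l)) (fun l => O.N (e.symm l)) fun l => F.Nc (e.symm l) := by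
  refine cnt O e hs (fun l => F.Nc_norm _) (fun l => F.Nc_zero _) (fun l => F.Nc_red _)
    (fun l x => ?_) hne
  rw [F.fact]
  have h1 : F.I (e.symm l) = (Finset.Ico (l - s l) l).map e.symm.toEmbedding := by
    ext j
    rw [hI, Finset.mem_map_equiv, Equiv.symm_symm, Finset.mem_Ico, Equiv.apply_symm_apply]
    constructor
    · rintro ⟨h1, h2⟩
      exact ⟨h1, by omega⟩
    · rintro ⟨h1, h2⟩
      exact ⟨h1, by omega⟩
  rw [h1, Finset.prod_map]
  rfl

/-- two curves with the same image are equal -/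
theorem eq_of_image_eq (F : H205.Fact O) (hacyc : ∀ b, b ∉ F.I b)
    {b c : Fin n × ℤ} (h : (F.C b).image = (F.C c).image) : b = c := by
  have h1 := deg_formula O (F.C b) (F.Nc_norm b) (F.Nc_zero b) (F.Nc_red b) (F.fact b) b
  have h2 := deg_formula O (F.C b) (F.Nc_norm c) (fun x => by rw [F.Nc_zero c, h])
    (fun x hx => F.Nc_red c x (by rwa [← h])) (F.fact c) b
  rw [h1, if_neg (hacyc b), if_pos rfl] at h2
  by_contra hne
  rw [if_neg hne] at h2
  split_ifs at h2 <;> omega

end Vale.Agent.P267.H995
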