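import Vale.Agent.P267.H857.Bridge4
import Vale.Agent.P267.H995.Zig

/-!
# P267, UNI-LB: the forms `W(r) = ∑ r_abc ρ_a dρ_b ∧ dρ_c` of a partition of unity

For a 2-cocycle `r` of the nerve: `W(r)` is smooth and closed, real for real `r`; its zigzag
(`Part.zigW`); `W(δs)` is exact; independence of the partition; index maps.
-/

set_option linter.unusedSectionVars false

open scoped Manifold ContDiff ComplexConjugate Matrix
open Set Filter Topology

noncomputable section

namespace Vale.Agent.P267.H995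

open Vale.Agent.P267.FL

variable {X : Type*} [TopologicalSpace X] [ChartedSpace C2 X]

/-! ### locality -/

theorem parts_of_pr {F G : TwoF X} {x : X} (h : ∀ q q', pr F x q q' = pr G x q q') :
    F.f20 x = G.f20 x ∧ F.f11 x = G.f11 x ∧ F.f02 x = G.f02 x := by
  refine ⟨?_, ?_, ?_⟩
  · simpa [pr] using h (Sum.inl 0) (Sum.inl 1)
  · ext i j
    exact h (Sum.inl i) (Sum.inr j)
  · simpa [pr] using h (Sum.inr 0) (Sum.inr 1)

theorem smooth_of_local {F : TwoF X} (h : ∀ x, ∃ G : TwoF X, G.Smooth ∧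
    ∀ᶠ y in 𝓝 x, ∀ q q', pr F y q q' = pr G y q q') : F.Smooth := by
  have key : ∀ (e : Ch X) (z : C2), z ∈ e.target → ∃ G : TwoF X, G.Smooth ∧
      ∀ᶠ w in 𝓝 z, F.f20 (e.symm w) = G.f20 (e.symm w) ∧ F.f11 (e.symm w) = G.f11 (e.symm w) ∧
        F.f02 (e.symm w) = G.f02 (e.symm w) := by
    intro e z hz
    obtain ⟨G, hG, hev⟩ := h (e.symm z)
    refine ⟨G, hG, ?_⟩
    filter_upwards [(e.continuousAt_symm hz).eventually hev] with w hw
    exact parts_of_pr hw
  refine ⟨?_, ?_, ?_⟩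
  · intro e he z hz
    obtain ⟨G, hG, hev⟩ := key e z hz
    have h1 := (hG.s20 e he).contDiffAt (e.open_target.mem_nhds hz)
    refine (h1.congr_of_eventuallyEq ?_).contDiffWithinAt
    filter_upwards [hev] with w hw
    simp only [loc0, hw.1]
  · intro e he i j z hz
    obtain ⟨G, hG, hev⟩ := key e z hz
    have h1 := (hG.s11 e he i j).contDiffAt (e.open_target.mem_nhds hz)
    refine (h1.congr_of_eventuallyEq ?_).contDiffWithinAt
    filter_upwards [hev] with w hw
    simp only [loc11, hw.2.1]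
  · intro e he z hz
    obtain ⟨G, hG, hev⟩ := key e z hz
    have h1 := (hG.s02 e he).contDiffAt (e.open_target.mem_nhds hz)
    refine (h1.congr_of_eventuallyEq ?_).contDiffWithinAt
    filter_upwards [hev] with w hw
    simp only [loc2, hw.2.2]

theorem closed_of_local {F : TwoF X} (h : ∀ x, ∃ G : TwoF X, G.Closed ∧
    ∀ᶠ y in 𝓝 x, ∀ q q', pr F y q q' = pr G y q q') : F.Closed := by
  have key : ∀ x, ∃ G : TwoF X, G.Closed ∧
      ∀ᶠ w in 𝓝 (chartAt C2 x x), F.f20 ((chartAt C2 x).symm w) = G.f20 ((chartAt C2 x).symm w) ∧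
        F.f11 ((chartAt C2 x).symm w) = G.f11 ((chartAt C2 x).symm w) ∧
        F.f02 ((chartAt C2 x).symm w) = G.f02 ((chartAt C2 x).symm w) := by
    intro x
    obtain ⟨G, hG, hev⟩ := h x
    refine ⟨G, hG, ?_⟩
    filter_upwards [(tendsto_chart_symm x).eventually hev] with w hw
    exact parts_of_pr hw
  constructor
  · intro x j
    obtain ⟨G, hG, hev⟩ := key x
    rw [← hG.1 x j]
    have e1 : loc0 1 (chartAt C2 x) F.f20 =ᶠ[𝓝 (chartAt C2 x x)] loc0 1 (chartAt C2 x) G.f20 := by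
      filter_upwards [hev] with w hw
      simp only [loc0, hw.1]
    have e2 : ∀ i j, (fun z => loc11 (chartAt C2 x) F.f11 z i j) =ᶠ[𝓝 (chartAt C2 x x)]
        fun z => loc11 (chartAt C2 x) G.f11 z i j := by
      intro i j
      filter_upwards [hev] with w hw
      simp only [loc11, hw.2.1]
    unfold TwoF.d21 dbar0
    rw [dzb_congr e1, dz_congr (e2 1 j), dz_congr (e2 0 j)]
  · intro x i
    obtain ⟨G, hG, hev⟩ := key x
    rw [← hG.2 x i]
    have e1 : loc2 0 (chartAt C2 x) F.f02 =ᶠ[𝓝 (chartAt C2 x x)] loc2 0 (chartAt C2 x) G.f02 := by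
      filter_upwards [hev] with w hw
      simp only [loc2, hw.2.2]
    have e2 : ∀ i j, (fun z => loc11 (chartAt C2 x) F.f11 z i j) =ᶠ[𝓝 (chartAt C2 x x)]
        fun z => loc11 (chartAt C2 x) G.f11 z i j := by
      intro i j
      filter_upwards [hev] with w hw
      simp only [loc11, hw.2.1]
    unfold TwoF.d12
    rw [dz_congr e1, dzb_congr (e2 i 1), dzb_congr (e2 i 0)]

/-! ### the zigzag of `W(r)` -/

namespace Part

variable {ι : Type*} [Fintype ι] (S : Part X ι)

theorem W_add (r s : ι → ι → ι → ℂ) : S.W (fun a b c => r a b c + s a b c) = S.W r + S.W s := by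
  refine twoF_ext fun x q q' => ?_
  simp only [pr_add, pr_W, Wp, add_mul, Finset.sum_add_distrib]

theorem W_smul (t : ℂ) (r : ι → ι → ι → ℂ) : S.W (fun a b c => t * r a b c) = t • S.W r := by
  refine twoF_ext fun x q q' => ?_
  simp only [pr_smul, pr_W, Wp, Finset.mul_sum, mul_assoc]

theorem W_neg (r : ι → ι → ι → ℂ) : S.W (fun a b c => -r a b c) = -S.W r := by
  have := S.W_smul (-1) r
  simpa using this

theorem W_sub (r s : ι → ι → ι → ℂ) : S.W (fun a b c => r a b c - s a b c) = S.W r - S.W s := by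
  refine twoF_ext fun x q q' => ?_
  simp only [pr_sub, pr_W, Wp, sub_mul, Finset.sum_sub_distrib]

theorem W_zero : S.W (fun _ _ _ => 0) = 0 := by
  refine twoF_ext fun x q q' => ?_
  simp [pr_W, Wp]

theorem W_sum {K : Type*} (s : Finset K) (r : K → ι → ι → ι → ℂ) :
    S.W (fun a b c => ∑ k ∈ s, r k a b c) = ∑ k ∈ s, S.W (r k) := by
  classical
  induction s using Finset.induction_on with
  | empty => simpa using S.W_zero
  | insert k s hk ih =>
    rw [Finset.sum_insert hk, ← ih, ← W_add]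
    congr 1
    funext a b c
    rw [Finset.sum_insert hk]

/-- only the values of `r` on the triangles of the nerve matter -/
theorem W_congr {r s : ι → ι → ι → ℂ}
    (h : ∀ a b c x, x ∈ S.U a → x ∈ S.U b → x ∈ S.U c → r a b c = s a b c) : S.W r = S.W s := by
  refine twoF_ext fun x q q' => ?_
  simp only [pr_W, Wp]
  refine Finset.sum_congr rfl fun a _ => Finset.sum_congr rfl fun b _ =>
    Finset.sum_congr rfl fun c _ => ?_
  by_cases hbc : x ∉ S.U b ∨ x ∉ S.U c
  · rw [wd_eq_zero hbc, mul_zero, mul_zero]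
  · push Not at hbc
    by_cases ha : x ∈ S.U a
    · rw [h a b c x ha hbc.1 hbc.2]
    · rw [S.ψ_of_not ha]
      ring

/-- the primitive `∑_{b,c} r_bac ψ_b dψ_c` of `-W(r)` on `U_a` -/
def omW (r : ι → ι → ι → ℂ) (a : ι) : OneF X :=
  ∑ b, ∑ c, fmul (fun x => r b a c * S.ψ b x) (dF0 (S.ψ c))

theorem vv_omW (r : ι → ι → ι → ℂ) (a : ι) (x : X) (q : Qi) :
    vv (S.omW r a) x q = ∑ b, ∑ c, r b a c * S.ψ b x * DT (tq q) x (S.ψ c) := by
  simp only [omW, vv_sum, vv_fmul, vv_dF0]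

variable [IsManifold 𝓘(ℂ, C2) ω X]

theorem OAt_omW (r : ι → ι → ι → ℂ) (a : ι) (x : X) : OAt (S.omW r a) x :=
  OAt.sum fun b _ => OAt.sum fun c _ =>
    OAt.fmul ((SmAt.const _ _).mul (S.smAt_ψ b x)) (OAt_dF0 (S.smAt_ψ c x))

theorem pr_omW (r : ι → ι → ι → ℂ) (a : ι) (x : X) (q q' : Qi) :
    pr (S.omW r a).d x q q' = ∑ b, ∑ c, r b a c * S.wd b c x (tq q) (tq q') := by
  rw [omW, pr_d_sum fun b _ => OAt.sum fun c _ =>
    OAt.fmul ((SmAt.const _ _).mul (S.smAt_ψ b x)) (OAt_dF0 (S.smAt_ψ c x))]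
  refine Finset.sum_congr rfl fun b _ => ?_
  rw [pr_d_sum fun c _ =>
    OAt.fmul ((SmAt.const _ _).mul (S.smAt_ψ b x)) (OAt_dF0 (S.smAt_ψ c x))]
  refine Finset.sum_congr rfl fun c _ => ?_
  rw [pr_d_fds ((SmAt.const _ _).mul (S.smAt_ψ b x)) (S.smAt_ψ c x),
    DT_const_mul _ _ (S.dat_ψ b x), DT_const_mul _ _ (S.dat_ψ b x), wd]
  ring

/-- **the zigzag of `-W(r)`** -/
def zigW (r : ι → ι → ι → ℂ) (hr : IsCoc S.U r) : Zig S.U (-S.W r) where
  om := S.omW r
  l a b x := ∑ c, r a b c * S.ψ c x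
  r := r
  sm_om a x _ := S.OAt_omW r a x
  sml a b x _ _ := SmAt.sum fun c _ => (SmAt.const _ _).mul (S.smAt_ψ c x)
  d_om a x hx q q' := by
    rw [pr_omW, pr_neg, pr_W, Wp_eq' hr hx]
    ring
  dl a b x ha hb q := by
    have h1 : (fun x => ∑ c, r a b c * S.ψ c x) = fun x => ∑ c, r a b c * S.ψ c x := rfl
    rw [DT_sum _ fun c _ => (DAt.const _).mul (S.dat_ψ c x), vv_omW, vv_omW]
    simp only [DT_const_mul _ _ (S.dat_ψ _ x)]
    -- `r_{d b c} = r_{d a c} + r_{a b c} - r_{d a b}`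
    have h2 : ∀ d c, r d b c * S.ψ d x * DT (tq q) x (S.ψ c) =
        r d a c * S.ψ d x * DT (tq q) x (S.ψ c) + S.ψ d x * (r a b c * DT (tq q) x (S.ψ c)) -
        r d a b * S.ψ d x * DT (tq q) x (S.ψ c) := by
      intro d c
      by_cases hd : x ∈ S.U d
      · by_cases hc : x ∈ S.U c
        · have := hr d a b c x hd ha hb hc
          linear_combination (-S.ψ d x * DT (tq q) x (S.ψ c)) * this
        · rw [DT_ψ_of_not hc]
          ring
      · rw [S.ψ_of_not hd]
        ring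
    simp only [h2, Finset.sum_sub_distrib, Finset.sum_add_distrib, ← Finset.mul_sum,
      S.sum_DT_ψ, mul_zero, sub_zero, ← Finset.sum_mul, S.sum_ψ, one_mul]
  coc a b c x ha hb hc := by
    have h1 : ∀ d, (r a b d + r b c d - r a c d) * S.ψ d x = r a b c * S.ψ d x := by
      intro d
      by_cases hd : x ∈ S.U d
      · have := hr a b c d x ha hb hc hd
        linear_combination (S.ψ d x) * this
      · rw [S.ψ_of_not hd]
        ring
    rw [← Finset.sum_add_distrib, ← Finset.sum_sub_distrib]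
    have h2 : ∀ d, r a b d * S.ψ d x + r b c d * S.ψ d x - r a c d * S.ψ d x =
        r a b c * S.ψ d x := fun d => by rw [← h1 d]; ring
    rw [Finset.sum_congr rfl fun d _ => h2 d, ← Finset.mul_sum, S.sum_ψ, mul_one]

theorem omW_smooth (r : ι → ι → ι → ℂ) (a : ι) : (S.omW r a).Smooth :=
  OneF_Smooth_of_at fun x => S.OAt_omW r a x

/-- near a point of `U_a`, `W(r) = -d(omW r a)` -/
theorem W_local {r : ι → ι → ι → ℂ} (hr : IsCoc S.U r) {a : ι} {x : X} (hx : x ∈ S.U a) :
    ∀ᶠ y in 𝓝 x, ∀ q q', pr (S.W r) y q q' = pr ((-1 : ℂ) • S.omW r a).d y q q' := by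
  filter_upwards [(S.isOpen a).mem_nhds hx] with y hy q q'
  rw [pr_d_smul _ (S.OAt_omW r a y), pr_omW, pr_W, Wp_eq' hr hy]
  ring

theorem smul_smooth (t : ℂ) {A : OneF X} (hA : A.Smooth) : (t • A).Smooth :=
  OneF_Smooth_of_at fun x => (OneF_Smooth_at hA x).smul t

/-- `W(r)` is smooth -/
theorem smooth_W {r : ι → ι → ι → ℂ} (hr : IsCoc S.U r) : (S.W r).Smooth := by
  refine smooth_of_local fun x => ?_
  obtain ⟨a, ha⟩ := S.exists_mem x
  exact ⟨_, H857.smooth_d (smul_smooth (-1) (S.omW_smooth r a)), S.W_local hr ha⟩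

/-- `W(r)` is closed -/
theorem closed_W {r : ι → ι → ι → ℂ} (hr : IsCoc S.U r) : (S.W r).Closed := by
  refine closed_of_local fun x => ?_
  obtain ⟨a, ha⟩ := S.exists_mem x
  exact ⟨_, H857.closed_d (smul_smooth (-1) (S.omW_smooth r a)), S.W_local hr ha⟩

end Part

/-! ### consequences of the zigzag lemma -/

namespace Zig

variable {ι : Type*} {U : ι → Set X} {F G : TwoF X}

/-- pull-back by an index map -/
def comp {A : Type*} (Z : Zig U F) (c : A → ι) {V : A → Set X} (h : ∀ a, V a ⊆ U (c a)) :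
    Zig V F where
  om a := Z.om (c a)
  l a b := Z.l (c a) (c b)
  r a b d := Z.r (c a) (c b) (c d)
  sm_om a x hx := Z.sm_om _ x (h a hx)
  sml a b x ha hb := Z.sml _ _ x (h a ha) (h b hb)
  d_om a x hx := Z.d_om _ x (h a hx)
  dl a b x ha hb := Z.dl _ _ x (h a ha) (h b hb)
  coc a b d x ha hb hd := Z.coc _ _ _ x (h a ha) (h b hb) (h d hd)

variable [IsManifold 𝓘(ℂ, C2) ω X]

/-- linear combinations of zigzags -/
def addSmul (Z : Zig U F) (t : ℂ) (Z' : Zig U G) :
    Zig U (F + t • G) where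
  om a := Z.om a + t • Z'.om a
  l a b x := Z.l a b x + t * Z'.l a b x
  r a b c := Z.r a b c + t * Z'.r a b c
  sm_om a x hx := (Z.sm_om a x hx).add ((Z'.sm_om a x hx).smul t)
  sml a b x ha hb := (Z.sml a b x ha hb).add ((SmAt.const _ _).mul (Z'.sml a b x ha hb))
  d_om a x hx q q' := by
    rw [pr_d_add (Z.sm_om a x hx) ((Z'.sm_om a x hx).smul t), pr_d_smul _ (Z'.sm_om a x hx),
      Z.d_om a x hx, Z'.d_om a x hx, pr_add, pr_smul]
  dl a b x ha hb q := by
    rw [vv_add, vv_add, vv_smul, vv_smul, Z.dl a b x ha hb, Z'.dl a b x ha hb,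
      DT_add _ (Z.sml a b x ha hb).dat ((DAt.const _).mul (Z'.sml a b x ha hb).dat),
      DT_const_mul _ _ (Z'.sml a b x ha hb).dat]
    ring
  coc a b c x ha hb hc := by
    rw [← Z.coc a b c x ha hb hc, ← Z'.coc a b c x ha hb hc]
    ring

end Zig

/-- a two-form is exact: `F = dθ`, `θ` a smooth one-form -/
def Exact2 (F : TwoF X) : Prop := ∃ θ : OneF X, θ.Smooth ∧ F = θ.d

section exact

variable [IsManifold 𝓘(ℂ, C2) ω X] {F G : TwoF X}

theorem Exact2.add (hF : Exact2 F) (hG : Exact2 G) : Exact2 (F + G) := by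
  obtain ⟨θ, h, rfl⟩ := hF
  obtain ⟨θ', h', rfl⟩ := hG
  refine ⟨θ + θ', OneF_Smooth_of_at fun x => (OneF_Smooth_at h x).add (OneF_Smooth_at h' x), ?_⟩
  refine twoF_ext fun x q q' => ?_
  rw [pr_add, pr_d_add (OneF_Smooth_at h x) (OneF_Smooth_at h' x)]

theorem Exact2.smul (t : ℂ) (hF : Exact2 F) : Exact2 (t • F) := by
  obtain ⟨θ, h, rfl⟩ := hF
  refine ⟨t • θ, Part.smul_smooth t h, ?_⟩
  refine twoF_ext fun x q q' => ?_
  rw [pr_smul, pr_d_smul t (OneF_Smooth_at h x)]

theorem Exact2.neg (hF : Exact2 F) : Exact2 (-F) := by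
  have := hF.smul (-1)
  rwa [neg_one_smul] at this

theorem Exact2.sub (hF : Exact2 F) (hG : Exact2 G) : Exact2 (F - G) := by
  rw [sub_eq_add_neg]
  exact hF.add hG.neg

theorem Exact2.zero : Exact2 (0 : TwoF X) :=
  ⟨0, OneF_Smooth_of_at fun _ => OAt.zero, twoF_ext fun x q q' => by rw [pr_zero, pr_d_zero]⟩

theorem Exact2.smooth (hF : Exact2 F) : F.Smooth := by
  obtain ⟨θ, h, rfl⟩ := hF
  exact H857.smooth_d h

theorem Exact2.closed (hF : Exact2 F) : F.Closed := by
  obtain ⟨θ, h, rfl⟩ := hF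
  exact H857.closed_d h

variable {ι : Type*} [Fintype ι] (S : Part X ι)

/-- **zigzag lemma**: `F + W(r)` is exact -/
theorem Zig.exact (Z : Zig S.U F) : Exact2 (F + S.W Z.r) :=
  ⟨Z.theta, Z.smooth_theta, by
    have h := Z.eq
    rw [← sub_eq_iff_eq_add'] at h
    rw [← h]
    abel⟩

/-- `W(δs)` is exact -/
theorem Part.exact_W_coboundary (s : ι → ι → ℂ) :
    Exact2 (S.W fun a b c => s b c - s a c + s a b) := by
  let Z : Zig S.U (0 : TwoF X) :=
    { om := fun _ => 0
      l := fun a b _ => s a b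
      r := fun a b c => s b c - s a c + s a b
      sm_om := fun a x _ => OAt.zero
      sml := fun a b x _ _ => SmAt.const _ _
      d_om := fun a x _ q q' => by rw [pr_d_zero, pr_zero]
      dl := fun a b x _ _ q => by rw [DT_const, vv_zero, add_zero]
      coc := fun a b c x _ _ _ => by ring }
  have := Z.exact S
  rwa [zero_add] at this

/-- **independence of the partition** (of the same family of open sets, up to an index map):
`W_S(r ∘ c) - W_{S'}(r)` is exact if `S.U a ⊆ S'.U (c a)`. -/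
theorem Part.exact_sub {A : Type*} [Fintype A] (S : Part X A) (S' : Part X ι) (c : A → ι)
    (h : ∀ a, S.U a ⊆ S'.U (c a)) {r : ι → ι → ι → ℂ} (hr : IsCoc S'.U r) :
    Exact2 ((S.W fun a b d => r (c a) (c b) (c d)) - S'.W r) := by
  have := ((S'.zigW r hr).comp c h).exact S
  change Exact2 (-S'.W r + S.W fun a b d => r (c a) (c b) (c d)) at this
  rwa [sub_eq_neg_add]

/-- two forms with the same periods `r` differ by an exact form -/
theorem Zig.exact_sub (Z : Zig S.U F) (Z' : Zig S.U G)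
    (h : ∀ a b c x, x ∈ S.U a → x ∈ S.U b → x ∈ S.U c → Z.r a b c = Z'.r a b c) :
    Exact2 (F - G) := by
  have h1 := (Z.exact S).sub (Z'.exact S)
  rw [S.W_congr h] at h1
  simpa using h1

end exact

/-! ### index maps -/

theorem IsCoc.comp {ι A R : Type*} [AddCommGroup R] {U : ι → Set X} {r : ι → ι → ι → R}
    (hr : IsCoc U r) (c : A → ι) {V : A → Set X} (h : ∀ a, V a ⊆ U (c a)) :
    IsCoc V fun a b d => r (c a) (c b) (c d) := fun _ _ _ _ x ha hb hc hd =>
  hr _ _ _ _ x (h _ ha) (h _ hb) (h _ hc) (h _ hd)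

/-- push-forward of a partition under an index map -/
def Part.push {A ι : Type*} [Fintype A] [Fintype ι] [DecidableEq ι] (S : Part X A) (c : A → ι)
    (U : ι → Set X) (hU : ∀ i, IsOpen (U i)) (h : ∀ a, S.U a ⊆ U (c a)) : Part X ι where
  U := U
  isOpen := hU
  ρ i x := ∑ a ∈ Finset.univ.filter (fun a => c a = i), S.ρ a x
  smooth i := by
    intro e he
    rw [LB.loc0_zero]
    have : ((fun x => ((∑ a ∈ Finset.univ.filter (fun a => c a = i), S.ρ a x : ℝ) : ℂ)) ∘ e.symm) =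
        fun z => ∑ a ∈ Finset.univ.filter (fun a => c a = i), (S.ρ a (e.symm z) : ℂ) := by
      funext z
      simp
    rw [this]
    refine ContDiffOn.sum fun a _ => ?_
    have h1 := S.smooth a e he
    rwa [LB.loc0_zero] at h1
  supp i := by
    have h1 : Function.support (fun x => ∑ a ∈ Finset.univ.filter (fun a => c a = i), S.ρ a x) ⊆
        ⋃ a ∈ Finset.univ.filter (fun a => c a = i), tsupport (S.ρ a) := by
      intro x hx
      by_contra hcon
      simp only [mem_iUnion, not_exists] at hcon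
      refine hx (Finset.sum_eq_zero fun a ha => ?_)
      exact image_eq_zero_of_notMem_tsupport (hcon a ha)
    have h2 : IsClosed (⋃ a ∈ Finset.univ.filter (fun a => c a = i), tsupport (S.ρ a)) :=
      Set.Finite.isClosed_biUnion (Finset.finite_toSet _) fun a _ => isClosed_tsupport _
    refine (closure_minimal h1 h2).trans ?_
    simp only [iUnion_subset_iff, Finset.mem_filter, Finset.mem_univ, true_and]
    intro a ha
    rw [← ha]
    exact (S.supp a).trans (h a)
  sum x := by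
    rw [Finset.sum_fiberwise]
    exact S.sum x

theorem sum_fiber {A ι : Type*} [Fintype A] [Fintype ι] [DecidableEq ι] (c : A → ι)
    (f : ι → ℂ) (g : A → ℂ) :
    ∑ i, f i * ∑ a ∈ Finset.univ.filter (fun a => c a = i), g a = ∑ a, f (c a) * g a := by
  rw [← Finset.sum_fiberwise (s := Finset.univ) (g := c)]
  refine Finset.sum_congr rfl fun i _ => ?_
  rw [Finset.mul_sum]
  refine Finset.sum_congr rfl fun a ha => ?_
  rw [(Finset.mem_filter.1 ha).2]

/-- `W` of the push-forward -/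
theorem Part.W_push {A ι : Type*} [Fintype A] [Fintype ι] [DecidableEq ι] (S : Part X A)
    (c : A → ι) (U : ι → Set X) (hU : ∀ i, IsOpen (U i)) (h : ∀ a, S.U a ⊆ U (c a))
    (r : ι → ι → ι → ℂ) :
    (S.push c U hU h).W r = S.W fun a b d => r (c a) (c b) (c d) := by
  refine twoF_ext fun x q q' => ?_
  have hψ : ∀ i, (S.push c U hU h).ψ i = fun y => ∑ a ∈ Finset.univ.filter (fun a => c a = i),
      S.ψ a y := by
    intro i
    funext y
    simp only [ψ, push]
    push_cast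
    rfl
  have hD : ∀ (T : (C2 →L[ℝ] ℂ) →ₗ[ℂ] ℂ) i, DT T x ((S.push c U hU h).ψ i) =
      ∑ a ∈ Finset.univ.filter (fun a => c a = i), DT T x (S.ψ a) := by
    intro T i
    rw [hψ, DT_sum T fun a _ => S.dat_ψ a x]
  simp only [pr_W, Wp, wd, hD]
  simp only [hψ]
  generalize tq q = T
  generalize tq q' = T'
  -- innermost sum
  have e1 : ∀ i j, ∑ k, r i j k * (∑ a ∈ Finset.univ.filter (fun a => c a = i), S.ψ a x) *
      ((∑ a ∈ Finset.univ.filter (fun a => c a = j), DT T x (S.ψ a)) *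
        (∑ a ∈ Finset.univ.filter (fun a => c a = k), DT T' x (S.ψ a)) -
      (∑ a ∈ Finset.univ.filter (fun a => c a = j), DT T' x (S.ψ a)) *
        (∑ a ∈ Finset.univ.filter (fun a => c a = k), DT T x (S.ψ a))) =
      ∑ d, r i j (c d) * (∑ a ∈ Finset.univ.filter (fun a => c a = i), S.ψ a x) *
      ((∑ a ∈ Finset.univ.filter (fun a => c a = j), DT T x (S.ψ a)) * DT T' x (S.ψ d) -
      (∑ a ∈ Finset.univ.filter (fun a => c a = j), DT T' x (S.ψ a)) * DT T x (S.ψ d)) := by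
    intro i j
    simp only [mul_sub, Finset.sum_sub_distrib, ← mul_assoc]
    rw [sum_fiber c (fun k => r i j k * (∑ a ∈ Finset.univ.filter (fun a => c a = i), S.ψ a x) *
      (∑ a ∈ Finset.univ.filter (fun a => c a = j), DT T x (S.ψ a))) (fun d => DT T' x (S.ψ d)),
      sum_fiber c (fun k => r i j k * (∑ a ∈ Finset.univ.filter (fun a => c a = i), S.ψ a x) *
      (∑ a ∈ Finset.univ.filter (fun a => c a = j), DT T' x (S.ψ a))) (fun d => DT T x (S.ψ d))]
  simp only [e1]
  have e2 : ∀ i d, ∑ j, r i j (c d) * (∑ a ∈ Finset.univ.filter (fun a => c a = i), S.ψ a x) *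
      ((∑ a ∈ Finset.univ.filter (fun a => c a = j), DT T x (S.ψ a)) * DT T' x (S.ψ d) -
      (∑ a ∈ Finset.univ.filter (fun a => c a = j), DT T' x (S.ψ a)) * DT T x (S.ψ d)) =
      ∑ b, r i (c b) (c d) * (∑ a ∈ Finset.univ.filter (fun a => c a = i), S.ψ a x) *
      (DT T x (S.ψ b) * DT T' x (S.ψ d) - DT T' x (S.ψ b) * DT T x (S.ψ d)) := by
    intro i d
    have h1 : ∀ j, r i j (c d) * (∑ a ∈ Finset.univ.filter (fun a => c a = i), S.ψ a x) *
      ((∑ a ∈ Finset.univ.filter (fun a => c a = j), DT T x (S.ψ a)) * DT T' x (S.ψ d) -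
      (∑ a ∈ Finset.univ.filter (fun a => c a = j), DT T' x (S.ψ a)) * DT T x (S.ψ d)) =
      (r i j (c d) * (∑ a ∈ Finset.univ.filter (fun a => c a = i), S.ψ a x)) *
      ∑ a ∈ Finset.univ.filter (fun a => c a = j),
        (DT T x (S.ψ a) * DT T' x (S.ψ d) - DT T' x (S.ψ a) * DT T x (S.ψ d)) := by
      intro j
      rw [Finset.sum_sub_distrib, ← Finset.sum_mul, ← Finset.sum_mul]
    simp only [h1]
    rw [sum_fiber c (fun j => r i j (c d) *
      (∑ a ∈ Finset.univ.filter (fun a => c a = i), S.ψ a x))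
      (fun b => DT T x (S.ψ b) * DT T' x (S.ψ d) - DT T' x (S.ψ b) * DT T x (S.ψ d))]
  have e3 : ∀ i, ∑ j, ∑ d, r i j (c d) *
      (∑ a ∈ Finset.univ.filter (fun a => c a = i), S.ψ a x) *
      ((∑ a ∈ Finset.univ.filter (fun a => c a = j), DT T x (S.ψ a)) * DT T' x (S.ψ d) -
      (∑ a ∈ Finset.univ.filter (fun a => c a = j), DT T' x (S.ψ a)) * DT T x (S.ψ d)) =
      ∑ b, ∑ d, r i (c b) (c d) * (∑ a ∈ Finset.univ.filter (fun a => c a = i), S.ψ a x) *
      (DT T x (S.ψ b) * DT T' x (S.ψ d) - DT T' x (S.ψ b) * DT T x (S.ψ d)) := by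
    intro i
    rw [Finset.sum_comm]
    simp only [e2]
    rw [Finset.sum_comm]
  simp only [e3]
  have e4 : ∀ i, ∑ b, ∑ d, r i (c b) (c d) *
      (∑ a ∈ Finset.univ.filter (fun a => c a = i), S.ψ a x) *
      (DT T x (S.ψ b) * DT T' x (S.ψ d) - DT T' x (S.ψ b) * DT T x (S.ψ d)) =
      (∑ b, ∑ d, r i (c b) (c d) * (DT T x (S.ψ b) * DT T' x (S.ψ d) -
        DT T' x (S.ψ b) * DT T x (S.ψ d))) *
      (∑ a ∈ Finset.univ.filter (fun a => c a = i), S.ψ a x) := by
    intro i
    rw [Finset.sum_mul]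
    refine Finset.sum_congr rfl fun b _ => ?_
    rw [Finset.sum_mul]
    exact Finset.sum_congr rfl fun d _ => by ring
  simp only [e4]
  rw [sum_fiber c (fun i => ∑ b, ∑ d, r i (c b) (c d) * (DT T x (S.ψ b) * DT T' x (S.ψ d) -
        DT T' x (S.ψ b) * DT T x (S.ψ d))) (fun a => S.ψ a x)]
  refine Finset.sum_congr rfl fun a _ => ?_
  rw [Finset.sum_mul]
  refine Finset.sum_congr rfl fun b _ => ?_
  rw [Finset.sum_mul]
  exact Finset.sum_congr rfl fun d _ => by ring

end Vale.Agent.P267.H995
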