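import Vale.Agent.P267.H399.Calc2
import Vale.Agent.P267.H368.Cover
import Vale.Agent.P267.H995.Logs
import Vale.Agent.P267.H995.WForm

/-!
# P267, UNI-LB (2): frames on chart-convex sets, by discrete parallel transport

`exists_frame`: a line bundle has a smooth nowhere vanishing section on an open set which is
contained in a compact convex piece of a chart.  `exists_zig`: the curvature of every line bundle
has a zigzag with periods `2πi n`, `n` an integral 2-cocycle.
-/

set_option linter.unusedSectionVars false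

open scoped Manifold ContDiff ComplexConjugate Matrix ComplexOrder
open Set Filter Topology

noncomputable section

namespace Vale.Agent.P267.H995

open Vale.Agent.P267.FL

section step

variable {κ : Type*} [Fintype κ] [DecidableEq κ]

theorem step {A B : Matrix κ κ ℂ} {w : κ → ℂ} (hA : A.mulVec w = w) (hw : w ≠ 0)
    (h : ∀ i j, ‖B i j - A i j‖ < 1 / (Fintype.card κ + 1)) : B.mulVec w ≠ 0 := by
  intro hB
  have h0 : 0 < ‖w‖ := norm_pos_iff.2 hw
  have h1 : ‖w‖ ≤ (Fintype.card κ : ℝ) * (1 / (Fintype.card κ + 1)) * ‖w‖ := by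
    rw [pi_norm_le_iff_of_nonneg (by positivity)]
    intro i
    have e1 : w i = ∑ j, -(B i j - A i j) * w j := by
      have e2 : A.mulVec w i = w i := congrFun hA i
      have e3 : B.mulVec w i = 0 := congrFun hB i
      simp only [Matrix.mulVec, dotProduct] at e2 e3
      simp only [neg_sub, sub_mul, Finset.sum_sub_distrib]
      rw [e2, e3, sub_zero]
    rw [e1]
    refine (norm_sum_le _ _).trans ?_
    have e4 : ∀ j ∈ (Finset.univ : Finset κ), ‖-(B i j - A i j) * w j‖ ≤
        1 / (Fintype.card κ + 1) * ‖w‖ := by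
      intro j _
      rw [norm_mul, norm_neg]
      exact mul_le_mul (h i j).le (norm_le_pi_norm w j) (norm_nonneg _) (by positivity)
    refine (Finset.sum_le_card_nsmul _ _ _ e4).trans ?_
    rw [Finset.card_univ, nsmul_eq_mul]
    ring_nf
    exact le_refl _
  have h2 : (Fintype.card κ : ℝ) * (1 / (Fintype.card κ + 1)) < 1 := by
    rw [mul_one_div, div_lt_one (by positivity)]
    linarith
  nlinarith

end step

variable {κ : Type*} [Fintype κ] [DecidableEq κ]

/-- discrete transport of `v₀` along the segment from `p` to `z` -/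
def tr (Q : C2 → Matrix κ κ ℂ) (p : C2) (v₀ : κ → ℂ) (N : ℕ) : ℕ → C2 → κ → ℂ
  | 0, _ => v₀
  | k + 1, z => (Q (p + (((k + 1 : ℕ) : ℝ) / N) • (z - p))).mulVec (tr Q p v₀ N k z)

theorem contDiffAt_tr {Q : C2 → Matrix κ κ ℂ} {p : C2} {v₀ : κ → ℂ} {N : ℕ} {T : Set C2}
    (hQ : ∀ z ∈ T, ∀ i j, ContDiffAt ℝ ∞ (fun z => Q z i j) z) {z : C2}
    (hz : ∀ t : ℝ, 0 ≤ t → t ≤ 1 → p + t • (z - p) ∈ T) :
    ∀ k : ℕ, k ≤ N → ∀ i, ContDiffAt ℝ ∞ (fun z => tr Q p v₀ N k z i) z := by
  intro k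
  induction k with
  | zero => intro _ i; exact contDiffAt_const
  | succ k ih =>
    intro hk i
    have h1 : (fun z => tr Q p v₀ N (k + 1) z i) = fun z =>
        ∑ j, Q (p + (((k + 1 : ℕ) : ℝ) / N) • (z - p)) i j * tr Q p v₀ N k z j := rfl
    rw [h1]
    have hN : (0 : ℝ) < N := by
      have : 0 < N := by omega
      exact_mod_cast this
    have hk' : ((k + 1 : ℕ) : ℝ) ≤ N := by exact_mod_cast hk
    refine ContDiffAt.sum fun j _ => ContDiffAt.mul ?_ (ih (by omega) j)
    have h2 := hQ _ (hz (((k + 1 : ℕ) : ℝ) / N) (by positivity)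
      (by rw [div_le_one hN]; exact hk')) i j
    refine ContDiffAt.comp (g := fun z => Q z i j)
      (f := fun z : C2 => p + (((k + 1 : ℕ) : ℝ) / N) • (z - p)) z h2 ?_
    fun_prop

theorem tr_mem {Q : C2 → Matrix κ κ ℂ} {p : C2} {v₀ : κ → ℂ} {N : ℕ} {z : C2}
    (hI : ∀ t : ℝ, 0 ≤ t → t ≤ 1 → Q (p + t • (z - p)) * Q (p + t • (z - p)) =
      Q (p + t • (z - p))) (hv : (Q p).mulVec v₀ = v₀) (hv0 : v₀ ≠ 0)
    (hs : ∀ k : ℕ, k < N → ∀ i j, ‖Q (p + (((k + 1 : ℕ) : ℝ) / N) • (z - p)) i j -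
      Q (p + ((k : ℝ) / N) • (z - p)) i j‖ < 1 / (Fintype.card κ + 1)) :
    ∀ k : ℕ, k ≤ N → (Q (p + ((k : ℝ) / N) • (z - p))).mulVec (tr Q p v₀ N k z) =
      tr Q p v₀ N k z ∧ tr Q p v₀ N k z ≠ 0 := by
  intro k
  induction k with
  | zero =>
    intro _
    refine ⟨?_, hv0⟩
    change (Q _).mulVec v₀ = v₀
    rw [Nat.cast_zero, zero_div, zero_smul, add_zero, hv]
  | succ k ih =>
    intro hk
    obtain ⟨h1, h2⟩ := ih (by omega)
    have hN : (0 : ℝ) < N := by
      have : 0 < N := by omega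
      exact_mod_cast this
    have hk' : ((k + 1 : ℕ) : ℝ) ≤ N := by exact_mod_cast hk
    constructor
    · change (Q _).mulVec ((Q _).mulVec (tr Q p v₀ N k z)) = (Q _).mulVec (tr Q p v₀ N k z)
      rw [Matrix.mulVec_mulVec, hI _ (by positivity) (by rw [div_le_one hN]; exact hk')]
    · exact step h1 h2 (hs k (by omega))

/-- uniform smallness of the steps, on a compact convex set -/
theorem exists_steps {f : κ → κ → C2 → ℂ} {K : Set C2} (hK : IsCompact K) (hc : Convex ℝ K)
    {p : C2} (hp : p ∈ K) (hf : ∀ i j, ContinuousOn (f i j) K) {ε : ℝ} (hε : 0 < ε) :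
    ∃ N : ℕ, 0 < N ∧ ∀ z ∈ K, ∀ k : ℕ, k < N → ∀ i j,
      ‖f i j (p + (((k + 1 : ℕ) : ℝ) / N) • (z - p)) - f i j (p + ((k : ℝ) / N) • (z - p))‖ <
        ε := by
  have h1 : ∀ i j, ∃ δ > 0, ∀ x ∈ K, ∀ y ∈ K, dist x y < δ → dist (f i j x) (f i j y) < ε := by
    intro i j
    have := hK.uniformContinuousOn_of_continuous (hf i j)
    rw [Metric.uniformContinuousOn_iff] at this
    obtain ⟨δ, hδ, h⟩ := this ε hε
    exact ⟨δ, hδ, h⟩
  choose δ hδ hδ' using h1
  obtain ⟨D, hD⟩ := hK.isBounded.exists_norm_le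
  -- a common lower bound for the `δ i j`
  obtain ⟨d, hd, hdle⟩ : ∃ d > 0, ∀ i j, d ≤ δ i j := by
    by_cases hne : Nonempty κ
    · let g : κ × κ → ℝ := fun q => δ q.1 q.2
      obtain ⟨q, hq⟩ := Finite.exists_min g
      exact ⟨g q, hδ q.1 q.2, fun i j => hq (i, j)⟩
    · exact ⟨1, one_pos, fun i => (hne ⟨i⟩).elim⟩
  have hD0 : 0 ≤ D := (norm_nonneg _).trans (hD p hp)
  obtain ⟨N, hN⟩ := exists_nat_gt (2 * D / d)
  have hNpos : (0 : ℝ) < N := lt_of_le_of_lt (by positivity) hN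
  have hN0 : 0 < N := by exact_mod_cast hNpos
  refine ⟨N, hN0, fun z hz k hk i j => ?_⟩
  have hmem : ∀ t : ℝ, 0 ≤ t → t ≤ 1 → p + t • (z - p) ∈ K := by
    intro t ht ht'
    have := hc hp hz (sub_nonneg.2 ht') ht (by ring)
    have e : p + t • (z - p) = (1 - t) • p + t • z := by
      rw [smul_sub, sub_smul, one_smul]
      abel
    rw [e]
    exact this
  have hk' : ((k + 1 : ℕ) : ℝ) ≤ N := by exact_mod_cast hk
  have hk'' : (k : ℝ) ≤ N := by exact_mod_cast hk.le
  rw [← dist_eq_norm]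
  refine hδ' i j _ (hmem _ (by positivity) (by rw [div_le_one hNpos]; exact hk')) _
    (hmem _ (by positivity) (by rw [div_le_one hNpos]; exact hk'')) ?_
  refine lt_of_lt_of_le ?_ (hdle i j)
  rw [dist_eq_norm]
  have e : p + (((k + 1 : ℕ) : ℝ) / N) • (z - p) - (p + ((k : ℝ) / N) • (z - p)) =
      (1 / N : ℝ) • (z - p) := by
    rw [add_sub_add_left_eq_sub, ← sub_smul]
    congr 1
    push_cast
    ring
  rw [e, norm_smul, Real.norm_of_nonneg (by positivity)]
  have h3 : ‖z - p‖ ≤ 2 * D := (norm_sub_le _ _).trans (by linarith [hD z hz, hD p hp])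
  calc 1 / (N : ℝ) * ‖z - p‖ ≤ 1 / N * (2 * D) := by gcongr
    _ = 2 * D / N := by ring
    _ < d := by
      rw [div_lt_iff₀ hd] at hN
      rw [div_lt_iff₀ hNpos]
      linarith

variable {X : Type*} [TopologicalSpace X] [ChartedSpace C2 X]

/-- an open set inside a compact convex piece of a chart -/
def FrameSet (U : Set X) : Prop :=
  ∃ e ∈ atlas C2 X, ∃ K : Set C2, IsCompact K ∧ Convex ℝ K ∧ K ⊆ e.target ∧ U ⊆ e.source ∧
    e '' U ⊆ K

/-- a set which is convex in some chart -/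
def ChConv (U : Set X) : Prop := ∃ e ∈ atlas C2 X, U ⊆ e.source ∧ Convex ℝ (e '' U)

theorem exists_range {P : Matrix κ κ ℂ} (hI : P * P = P) (ht : P.trace = 1) :
    ∃ v : κ → ℂ, P.mulVec v = v ∧ v ≠ 0 := by
  have h0 : P ≠ 0 := by
    rintro rfl
    simp at ht
  obtain ⟨j, hj⟩ : ∃ j, P.mulVec (Pi.single j 1) ≠ 0 := by
    by_contra hcon
    push Not at hcon
    apply h0
    ext i j
    have := congrFun (hcon j) i
    simpa [Matrix.mulVec_single_one] using this
  exact ⟨_, by rw [Matrix.mulVec_mulVec, hI], hj⟩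

theorem smAt_of_chart [IsManifold 𝓘(ℂ, C2) ω X] {f : X → ℂ} {x : X} {e : Ch X}
    (he : e ∈ atlas C2 X) (hx : x ∈ e.source)
    (h : ContDiffAt ℝ ∞ (fun z => f (e.symm z)) (e x)) : SmAt f x := by
  have h1 : At0 ∞ 0 f x := at0_of_chart he hx (by rw [LB.loc0_zero]; exact h)
  unfold At0 at h1
  rw [LB.loc0_zero] at h1
  exact h1

/-- **smooth nowhere vanishing sections** -/
theorem exists_frame [IsManifold 𝓘(ℂ, C2) ω X] {κ : Type} [Fintype κ] [DecidableEq κ]
    (L : LB X κ) {U : Set X} (hU : IsOpen U) (h : FrameSet U) :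
    ∃ w : κ → X → ℂ, (∀ k, ∀ x ∈ U, SmAt (w k) x) ∧
      ∀ x ∈ U, (L.P x).mulVec (fun k => w k x) = (fun k => w k x) ∧ (fun k => w k x) ≠ 0 := by
  rcases U.eq_empty_or_nonempty with rfl | ⟨x₀, hx₀⟩
  · exact ⟨fun _ _ => 0, by simp⟩
  obtain ⟨e, he, K, hK, hc, hKt, hUs, hUK⟩ := h
  have hp : e x₀ ∈ K := hUK ⟨x₀, hx₀, rfl⟩
  set p := e x₀ with hpd
  let Q : C2 → Matrix κ κ ℂ := fun z => L.P (e.symm z)
  have hQs : ∀ z ∈ e.target, ∀ i j, ContDiffAt ℝ ∞ (fun z => Q z i j) z := by
    intro z hz i j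
    have h1 := L.smooth i j e he
    rw [LB.loc0_zero] at h1
    exact h1.contDiffAt (e.open_target.mem_nhds hz)
  obtain ⟨v₀, hv, hv0⟩ := exists_range (L.idem (e.symm p)) (L.tr (e.symm p))
  obtain ⟨N, hN0, hN⟩ := exists_steps (f := fun i j z => Q z i j) hK hc hp
    (fun i j z hz => (hQs z (hKt hz) i j).continuousAt.continuousWithinAt)
    (ε := 1 / (Fintype.card κ + 1)) (by positivity)
  have hmem : ∀ z ∈ K, ∀ t : ℝ, 0 ≤ t → t ≤ 1 → p + t • (z - p) ∈ K := by
    intro z hz t ht ht'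
    have := hc hp hz (sub_nonneg.2 ht') ht (by ring)
    have e : p + t • (z - p) = (1 - t) • p + t • z := by
      rw [smul_sub, sub_smul, one_smul]
      abel
    rw [e]
    exact this
  refine ⟨fun k x => tr Q p v₀ N N (e x) k, fun k x hx => ?_, fun x hx => ?_⟩
  · have hx' : e x ∈ K := hUK ⟨x, hx, rfl⟩
    refine smAt_of_chart he (hUs hx) ?_
    have h1 := contDiffAt_tr (Q := Q) (p := p) (v₀ := v₀) (N := N) hQs
      (z := e x) (fun t ht ht' => hKt (hmem _ hx' t ht ht')) N le_rfl k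
    refine h1.congr_of_eventuallyEq ?_
    filter_upwards [e.open_target.mem_nhds (e.map_source (hUs hx))] with z hz
    rw [e.right_inv hz]
  · have hx' : e x ∈ K := hUK ⟨x, hx, rfl⟩
    have h1 := tr_mem (Q := Q) (p := p) (v₀ := v₀) (N := N) (z := e x)
      (fun t _ _ => L.idem _) hv hv0 (hN _ hx') N le_rfl
    have h2 : p + ((N : ℝ) / N) • (e x - p) = e x := by
      rw [div_self (by exact_mod_cast hN0.ne'), one_smul]
      abel
    rw [h2] at h1
    have h3 : Q (e x) = L.P x := by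
      change L.P (e.symm (e x)) = _
      rw [e.left_inv (hUs hx)]
    rw [h3] at h1
    exact h1

/-! ### topology of chart-convex sets -/

theorem ChConv.isPreconnected {U : Set X} (h : ChConv U) : IsPreconnected U := by
  obtain ⟨e, -, hs, hc⟩ := h
  have h1 : U = e.symm '' (e '' U) := by
    rw [image_image]
    ext x
    constructor
    · intro hx
      exact ⟨x, hx, e.left_inv (hs hx)⟩
    · rintro ⟨y, hy, rfl⟩
      change e.symm (e y) ∈ U
      rwa [e.left_inv (hs hy)]
  rw [h1]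
  refine hc.isPreconnected.image _ ?_
  refine e.continuousOn_symm.mono ?_
  rintro _ ⟨x, hx, rfl⟩
  exact e.map_source (hs hx)

theorem ChConv.isSimplyConnected {U : Set X} (h : ChConv U) (hne : U.Nonempty) :
    IsSimplyConnected U := by
  obtain ⟨e, -, hs, hc⟩ := h
  have h1 : ContractibleSpace (e '' U) := hc.contractibleSpace (hne.image _)
  have h2 : SimplyConnectedSpace (e '' U) := inferInstance
  exact (e.homeomorphOfImageSubsetSource hs rfl).toHomotopyEquiv.simplyConnectedSpace_iff.2 h2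

/-- the hypotheses on a family of open sets: members lie in compact convex pieces of charts, pairwise and triple
intersections are convex in charts -/
structure GoodFam {ι : Type*} (U : ι → Set X) : Prop where
  isOpen : ∀ a, IsOpen (U a)
  frame : ∀ a, FrameSet (U a)
  one : ∀ a, ChConv (U a)
  two : ∀ a b, (U a ∩ U b).Nonempty → ChConv (U a ∩ U b)
  three : ∀ a b c, IsPreconnected (U a ∩ U b ∩ U c)

/-- **The curvature of a line bundle has a zigzag with periods `2πi n`**, `n` an integral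
2-cocycle of the nerve. -/
theorem exists_zig [IsManifold 𝓘(ℂ, C2) ω X] {ι : Type*} {κ : Type} [Fintype κ] [DecidableEq κ]
    (L : LB X κ) {U : ι → Set X} (hU : GoodFam U) :
    ∃ (Z : Zig U L.curv) (n : ι → ι → ι → ℤ), IsCoc U n ∧
      Z.r = fun a b c => 2 * Real.pi * Complex.I * n a b c :=
  exists_zig_of_sec L hU.isOpen (fun a b h => (hU.two a b h).isSimplyConnected h)
    hU.three fun a => exists_frame L (hU.isOpen a) (hU.frame a)

/-- **UNI-LB (2)**: `F = -2πi W(n) + dθ` -/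
theorem exists_cocycle [IsManifold 𝓘(ℂ, C2) ω X] {ι : Type*} [Fintype ι] {κ : Type} [Fintype κ]
    [DecidableEq κ] (L : LB X κ) (S : Part X ι) (hU : GoodFam S.U) :
    ∃ (n : ι → ι → ι → ℤ), IsCoc S.U n ∧ ∃ θ : OneF X, θ.Smooth ∧
      L.curv = -(2 * Real.pi * Complex.I : ℂ) • (S.W fun a b c => (n a b c : ℂ)) + θ.d := by
  obtain ⟨Z, n, hn, hr⟩ := exists_zig L hU
  refine ⟨n, hn, Z.theta, Z.smooth_theta, ?_⟩
  have h := Z.eq
  rw [hr, Part.W_smul] at h
  rw [neg_smul]
  exact h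

/-! ### good covers of helper368 -/

section cover

open H368

/-- every good cover is a good family -/
theorem goodFam {F : Type*} [NormedAddCommGroup F]
    [InnerProductSpace ℝ F] {A : C2 ≃L[ℝ] F} (G : GoodCover X A) : GoodFam G.U := by
  have : FiniteDimensional ℝ F := LinearEquiv.finiteDimensional A.toLinearEquiv
  classical
  refine ⟨G.isOpen_U, fun a => ?_, fun a => ?_, fun a b h => ?_, fun a b c => ?_⟩
  · refine ⟨G.e a, G.e_mem a, {w | ‖A w - A (G.c a)‖ ≤ G.r}, isCompact_closed_aball A _ _, ?_,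
      G.closed_sub a, G.U_sub_source a, ?_⟩
    · have h1 : {w | ‖A w - A (G.c a)‖ ≤ G.r} = A ⁻¹' Metric.closedBall (A (G.c a)) G.r := by
        ext w
        simp [dist_eq_norm]
      rw [h1]
      exact (convex_closedBall _ _).linear_preimage A.toLinearEquiv.toLinearMap
    · rw [G.image_U a]
      intro w hw
      exact (mem_aball.1 hw).le
  · refine ⟨G.e a, G.e_mem a, G.U_sub_source a, ?_⟩
    rw [G.image_U a]
    exact convex_aball _ _ _
  · have h1 : (⋂ j ∈ ({a, b} : Finset (Fin G.n)), G.U j) = G.U a ∩ G.U b := by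
      ext x
      simp
    obtain ⟨h2, h3, -⟩ := G.inter_convex (s := {a, b}) (i := a) (by simp) (by rwa [h1])
    rw [h1] at h3
    exact ⟨G.e a, G.e_mem a, inter_subset_left.trans (h2 a (by simp)), h3⟩
  · rcases (G.U a ∩ G.U b ∩ G.U c).eq_empty_or_nonempty with h | h
    · rw [h]
      exact isPreconnected_empty
    · have h1 : (⋂ j ∈ ({a, b, c} : Finset (Fin G.n)), G.U j) = G.U a ∩ G.U b ∩ G.U c := by
        ext x
        simp [and_assoc]
      obtain ⟨h2, h3, -⟩ := G.inter_convex (s := {a, b, c}) (i := a) (by simp) (by rwa [h1])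
      rw [h1] at h3
      exact ChConv.isPreconnected ⟨G.e a, G.e_mem a,
        (inter_subset_left.trans inter_subset_left).trans (h2 a (by simp)), h3⟩

end cover

end Vale.Agent.P267.H995
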