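import Vale.Agent.P267.H68.Cone
import Vale.Agent.P267.H857.Bridge4
import Vale.Agent.P267.H995.Frame

/-!
# P267, UNI-POIN: the Poincaré lemma in the FL language, zigzags of closed two-forms

`exists_prim2`: a smooth closed two-form has a primitive on every open set which is convex in a
chart; `exists_prim1`: the same for one-forms; `exists_zig_closed`: every smooth closed two-form
has a zigzag over a good family.
-/

set_option linter.unusedSectionVars false

open scoped Manifold ContDiff ComplexConjugate Matrix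
open Set Filter Topology

noncomputable section

namespace Vale.Agent.P267.H995

open Vale.Agent.P267.FL Vale.Agent.P267.H857

variable {X : Type*} [TopologicalSpace X] [ChartedSpace C2 X] [IsManifold 𝓘(ℂ, C2) ω X]

/-! ### change of charts -/

theorem OAt.chart {A : OneF X} {x : X} (h : OAt A x) {e : Ch X} (he : e ∈ atlas C2 X)
    (hx : x ∈ e.source) :
    ContDiffAt ℝ ∞ (loc10 e A.f10) (e x) ∧ ContDiffAt ℝ ∞ (loc1 0 e A.f01) (e x) := by
  constructor
  · have h1 : ContDiffAt ℝ ∞ (loc1 0 (chartAt C2 x) (fun y p => conj (A.f10 y p)))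
        (chartAt C2 x x) := by
      rw [contDiffAt_pi]
      intro i
      have : (fun z => loc1 0 (chartAt C2 x) (fun y p => conj (A.f10 y p)) z i) =
          fun z => conj (loc10 (chartAt C2 x) A.f10 z i) := by
        funext z
        rw [loc10_conj, Complex.conj_conj]
      rw [this]
      exact (Complex.conjCLE.contDiff.contDiffAt).comp (chartAt C2 x x) (h (Sum.inl i))
    have h2 := loc1_contDiffAt_change he (chart_mem_atlas C2 x) hx (mem_chart_source C2 x) h1
    rw [contDiffAt_pi] at h2 ⊢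
    intro i
    have : (fun z => loc10 e A.f10 z i) =
        fun z => conj (loc1 0 e (fun y p => conj (A.f10 y p)) z i) := by
      funext z
      rw [loc10_conj]
    rw [this]
    exact (Complex.conjCLE.contDiff.contDiffAt).comp (e x) (h2 i)
  · exact loc1_contDiffAt_change he (chart_mem_atlas C2 x) hx (mem_chart_source C2 x)
      (contDiffAt_pi.2 fun i => h (Sum.inr i))

theorem OAt_of_chart {A : OneF X} {x : X} {e : Ch X} (he : e ∈ atlas C2 X)
    (hx : x ∈ e.source) (h10 : ContDiffAt ℝ ∞ (loc10 e A.f10) (e x))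
    (h01 : ContDiffAt ℝ ∞ (loc1 0 e A.f01) (e x)) : OAt A x := by
  intro q
  rcases q with i | i
  · have h1 : ContDiffAt ℝ ∞ (loc1 0 e (fun y p => conj (A.f10 y p))) (e x) := by
      rw [contDiffAt_pi] at h10 ⊢
      intro i
      have : (fun z => loc1 0 e (fun y p => conj (A.f10 y p)) z i) =
          fun z => conj (loc10 e A.f10 z i) := by
        funext z
        rw [loc10_conj, Complex.conj_conj]
      rw [this]
      exact (Complex.conjCLE.contDiff.contDiffAt).comp (e x) (h10 i)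
    have h2 := loc1_contDiffAt_change (chart_mem_atlas C2 x) he (mem_chart_source C2 x) hx h1
    rw [contDiffAt_pi] at h2
    have : (fun z => loc10 (chartAt C2 x) A.f10 z i) =
        fun z => conj (loc1 0 (chartAt C2 x) (fun y p => conj (A.f10 y p)) z i) := by
      funext z
      rw [loc10_conj]
    change ContDiffAt ℝ ∞ (fun z => loc10 (chartAt C2 x) A.f10 z i) _
    rw [this]
    exact (Complex.conjCLE.contDiff.contDiffAt).comp (chartAt C2 x x) (h2 i)
  · exact contDiffAt_pi.1 (loc1_contDiffAt_change (chart_mem_atlas C2 x) he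
      (mem_chart_source C2 x) hx h01) i

/-! ### exterior derivatives in arbitrary charts, pointwise -/

theorem extDeriv_ofOne {A : OneF X} {x : X} (h : OAt A x) {e : Ch X} (he : e ∈ atlas C2 X)
    (hx : x ∈ e.source) :
    extDeriv (pullC e.symm (ofOne A)) (e x) = pullC e.symm (ofTwo A.d) (e x) := by
  have h1 := h.chart (chart_mem_atlas C2 x) (mem_chart_source C2 x)
  have hd : DifferentiableAt ℝ (pullC (chartAt C2 x).symm (ofOne A)) (chartAt C2 x x) := by
    refine DifferentiableAt.congr_of_eventuallyEq ?_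
      (pullC_ofOne_ev (chart_mem_atlas C2 x) A (mem_chart_target C2 x))
    exact (contDiffAt_alt1 (contDiffAt_pi.1 h1.1) (contDiffAt_pi.1 h1.2)).differentiableAt
      (by simp)
  rw [extDeriv_change he (chart_mem_atlas C2 x) (ofOne A) hx (mem_chart_source C2 x) hd,
    pullC_eq' he (ofTwo A.d) hx, fderiv_trans he (chart_mem_atlas C2 x) hx
      (mem_chart_source C2 x)]
  have h2 : extDeriv (pullC (chartAt C2 x).symm (ofOne A)) (chartAt C2 x x) =
      (show C2 [⋀^Fin 2]→L[ℝ] ℂ from ofTwo A.d x) := by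
    refine (extDeriv_pullC_ofOne (chart_mem_atlas C2 x) A (mem_chart_target C2 x)
      (h1.1.differentiableAt (by simp)) (h1.2.differentiableAt (by simp))).trans ?_
    change _ = alt2 (del10 A.f10 x) ((del1 A.f01 + dbar10 A.f10) x) (dbar1 0 A.f01 x)
    congr 1
  rw [h2]
  rfl

theorem extDeriv_ofFun {s : X → ℂ} {x : X} (h : SmAt s x) {e : Ch X} (he : e ∈ atlas C2 X)
    (hx : x ∈ e.source) :
    extDeriv (pullC e.symm (ofFun s)) (e x) = pullC e.symm (ofOne (dF0 s)) (e x) := by
  have hd : DifferentiableAt ℝ (pullC (chartAt C2 x).symm (ofFun s)) (chartAt C2 x x) := by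
    rw [pullC_ofFun_ev]
    refine (ContinuousAlternatingMap.constOfIsEmptyLIE ℝ C2 ℂ (Fin 0)).differentiableAt.comp
      (chartAt C2 x x) ?_
    rw [LB.loc0_zero]
    exact h.dat
  rw [extDeriv_change he (chart_mem_atlas C2 x) (ofFun s) hx (mem_chart_source C2 x) hd,
    pullC_eq' he (ofOne (dF0 s)) hx, fderiv_trans he (chart_mem_atlas C2 x) hx
      (mem_chart_source C2 x)]
  have h2 : extDeriv (pullC (chartAt C2 x).symm (ofFun s)) (chartAt C2 x x) =
      (show C2 [⋀^Fin 1]→L[ℝ] ℂ from ofOne (dF0 s) x) := congrFun (dC_ofFun s) x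
  rw [h2]
  rfl

/-- the form on `X` with given expression in the chart `e` -/
def pushC {k : ℕ} (e : Ch X) (γ : C2 → C2 [⋀^Fin k]→L[ℝ] ℂ) : CForm k X := fun x =>
  ((γ (e x)).compContinuousLinearMap (mulL (jac e x)⁻¹) : C2 [⋀^Fin k]→L[ℝ] ℂ)

theorem pullC_pushC {k : ℕ} {e : Ch X} (he : e ∈ atlas C2 X) (γ : C2 → C2 [⋀^Fin k]→L[ℝ] ℂ)
    {z : C2} (hz : z ∈ e.target) : pullC e.symm (pushC e γ) z = γ z := by
  obtain ⟨x, hx, rfl⟩ : ∃ x ∈ e.source, e x = z := ⟨e.symm z, e.map_target hz, e.right_inv hz⟩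
  rw [pullC_eq' he _ hx]
  change ((γ (e x)).compContinuousLinearMap (mulL (jac e x)⁻¹)).compContinuousLinearMap
    (mulL (jac e x)) = _
  have h1 : (mulL (jac e x)⁻¹).comp (mulL (jac e x)) = ContinuousLinearMap.id ℝ C2 := by
    rw [← mulL_mul, Matrix.nonsing_inv_mul _ (isUnit_iff_ne_zero.2 (jac_det_ne_zero he hx)),
      mulL_one]
  ext v
  change (γ (e x)) (mulL (jac e x)⁻¹ ∘ (mulL (jac e x) ∘ v)) = γ (e x) v
  congr 1
  funext i
  exact congrFun (congrArg DFunLike.coe h1) (v i)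

theorem pullC_inj {k : ℕ} {e : Ch X} (he : e ∈ atlas C2 X) {a b : CForm k X} {x : X}
    (hx : x ∈ e.source) (h : pullC e.symm a (e x) = pullC e.symm b (e x)) :
    (show C2 [⋀^Fin k]→L[ℝ] ℂ from a x) = (show C2 [⋀^Fin k]→L[ℝ] ℂ from b x) := by
  rw [pullC_eq' he _ hx, pullC_eq' he _ hx] at h
  have h1 : (mulL (jac e x)).comp (mulL (jac e x)⁻¹) = ContinuousLinearMap.id ℝ C2 := by
    rw [← mulL_mul, Matrix.mul_nonsing_inv _ (isUnit_iff_ne_zero.2 (jac_det_ne_zero he hx)),
      mulL_one]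
  have h2 : ∀ c : C2 [⋀^Fin k]→L[ℝ] ℂ, (c.compContinuousLinearMap
      (mulL (jac e x))).compContinuousLinearMap (mulL (jac e x)⁻¹) = c := by
    intro c
    ext v
    change c (mulL (jac e x) ∘ (mulL (jac e x)⁻¹ ∘ v)) = c v
    congr 1
    funext i
    exact congrFun (congrArg DFunLike.coe h1) (v i)
  have h3 := congrArg (fun c : C2 [⋀^Fin k]→L[ℝ] ℂ =>
    c.compContinuousLinearMap (mulL (jac e x)⁻¹)) h
  exact (h2 _).symm.trans (h3.trans (h2 _))

/-! ### primitives -/

theorem pr_of_ofTwo {F G : TwoF X} {x : X}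
    (h : (show C2 [⋀^Fin 2]→L[ℝ] ℂ from ofTwo F x) = (show C2 [⋀^Fin 2]→L[ℝ] ℂ from ofTwo G x))
    (q q' : Qi) : pr F x q q' = pr G x q q' := by
  obtain ⟨h1, h2, h3⟩ := alt2_inj h
  rcases q with i | i <;> rcases q' with j | j <;> simp [pr, h1, h2, h3]

/-- **Poincaré lemma for two-forms** -/
theorem exists_prim2 {F : TwoF X} (hF : F.Smooth) (hc : F.Closed) {U : Set X} (hU : IsOpen U)
    (h : ChConv U) : ∃ A : OneF X, (∀ x ∈ U, OAt A x) ∧
      ∀ x ∈ U, ∀ q q', pr A.d x q q' = pr F x q q' := by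
  rcases U.eq_empty_or_nonempty with rfl | ⟨x₀, hx₀⟩
  · exact ⟨0, by simp, by simp⟩
  obtain ⟨e, he, hs, hconv⟩ := h
  have hV : IsOpen (e '' U) := e.isOpen_image_of_subset_source hU hs
  have hVt : e '' U ⊆ e.target := by
    rintro _ ⟨x, hx, rfl⟩
    exact e.map_source (hs hx)
  have h1 := smoothC_ofTwo.2 hF e he
  obtain ⟨γ, hγ, hd⟩ := H68.exists_primitive (β := pullC e.symm (ofTwo F)) hV
    (hconv.starConvex ⟨x₀, hx₀, rfl⟩) (h1.mono hVt) (by
      intro z hz
      have h2 := (isExtDerivC_ofTwo_zero hF).2 hc e he z (hVt hz)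
      rw [h2]
      rfl)
  let A : OneF X := toOne (pushC e γ)
  have hA : ofOne A = pushC e γ := ofOne_toOne _
  have hpull : ∀ z ∈ e.target, pullC e.symm (ofOne A) z = γ z := by
    intro z hz
    rw [hA]
    exact pullC_pushC he γ hz
  have hAt : ∀ x ∈ U, OAt A x := by
    intro x hx
    have h3 : ContDiffAt ℝ ∞ γ (e x) := (hγ (e x) ⟨x, hx, rfl⟩).contDiffAt
      (hV.mem_nhds ⟨x, hx, rfl⟩)
    refine OAt_of_chart he (hs hx) ?_ ?_
    · rw [contDiffAt_pi]
      intro i
      refine (contDiffAt_cf10 h3 i).congr_of_eventuallyEq ?_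
      filter_upwards [e.open_target.mem_nhds (e.map_source (hs hx))] with z hz
      rw [← hpull z hz, pullC_ofOne he A hz, cf10_alt1]
    · rw [contDiffAt_pi]
      intro i
      refine (contDiffAt_cf01 h3 i).congr_of_eventuallyEq ?_
      filter_upwards [e.open_target.mem_nhds (e.map_source (hs hx))] with z hz
      rw [← hpull z hz, pullC_ofOne he A hz, cf01_alt1]
  refine ⟨A, hAt, fun x hx => ?_⟩
  refine pr_of_ofTwo (pullC_inj he (hs hx) ?_)
  rw [← extDeriv_ofOne (hAt x hx) he (hs hx), ← hd (e x) ⟨x, hx, rfl⟩]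
  refine EventuallyEq.extDeriv_eq ?_
  filter_upwards [e.open_target.mem_nhds (e.map_source (hs hx))] with z hz
  exact hpull z hz

/-- **Poincaré lemma for one-forms** -/
theorem exists_prim1 {A : OneF X} {U : Set X} (hU : IsOpen U) (h : ChConv U)
    (hA : ∀ x ∈ U, OAt A x) (hc : ∀ x ∈ U, ∀ q q', pr A.d x q q' = 0) :
    ∃ l : X → ℂ, (∀ x ∈ U, SmAt l x) ∧ ∀ x ∈ U, ∀ q, vv A x q = DT (tq q) x l := by
  rcases U.eq_empty_or_nonempty with rfl | ⟨x₀, hx₀⟩
  · exact ⟨0, by simp, by simp⟩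
  obtain ⟨e, he, hs, hconv⟩ := h
  have hV : IsOpen (e '' U) := e.isOpen_image_of_subset_source hU hs
  have hVt : e '' U ⊆ e.target := by
    rintro _ ⟨x, hx, rfl⟩
    exact e.map_source (hs hx)
  obtain ⟨γ, hγ, hd⟩ := H68.exists_primitive (β := pullC e.symm (ofOne A)) hV
    (hconv.starConvex ⟨x₀, hx₀, rfl⟩) (by
      rintro _ ⟨x, hx, rfl⟩
      refine ContDiffAt.contDiffWithinAt ?_
      have h1 := (hA x hx).chart he (hs hx)
      refine ContDiffAt.congr_of_eventuallyEq ?_ (pullC_ofOne_ev he A (e.map_source (hs hx)))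
      exact contDiffAt_alt1 (contDiffAt_pi.1 h1.1) (contDiffAt_pi.1 h1.2)) (by
      rintro _ ⟨x, hx, rfl⟩
      rw [extDeriv_ofOne (hA x hx) he (hs hx), pullC_eq' he _ (hs hx)]
      have h2 : (show C2 [⋀^Fin 2]→L[ℝ] ℂ from ofTwo A.d x) = 0 := by
        obtain ⟨e1, e2, e3⟩ := parts_of_pr (F := A.d) (G := 0) (x := x)
          (fun q q' => by rw [hc x hx, pr_zero])
        change alt2 (A.d.f20 x) (A.d.f11 x) (A.d.f02 x) = 0
        rw [e1, e2, e3]
        exact alt2_zero
      rw [h2]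
      rfl)
  let l : X → ℂ := fun x => γ (e x) ![]
  have hpull : ∀ z ∈ e.target, pullC e.symm (ofFun l) z = γ z := by
    intro z hz
    rw [pullC_ofFun]
    ext v
    have hv : v = ![] := Subsingleton.elim _ _
    rw [hv]
    change loc0 0 e l z = γ z ![]
    rw [LB.loc0_zero]
    change γ (e (e.symm z)) ![] = _
    rw [e.right_inv hz]
  have hl : ∀ x ∈ U, SmAt l x := by
    intro x hx
    refine smAt_of_chart he (hs hx) ?_
    have h3 : ContDiffAt ℝ ∞ γ (e x) := (hγ (e x) ⟨x, hx, rfl⟩).contDiffAt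
      (hV.mem_nhds ⟨x, hx, rfl⟩)
    refine (contDiffAt_eval h3 ![]).congr_of_eventuallyEq ?_
    filter_upwards [e.open_target.mem_nhds (e.map_source (hs hx))] with z hz
    change γ (e (e.symm z)) ![] = _
    rw [e.right_inv hz]
  refine ⟨l, hl, fun x hx q => ?_⟩
  have h4 : (show C2 [⋀^Fin 1]→L[ℝ] ℂ from ofOne A x) =
      (show C2 [⋀^Fin 1]→L[ℝ] ℂ from ofOne (dF0 l) x) := by
    refine pullC_inj he (hs hx) ?_
    rw [← extDeriv_ofFun (hl x hx) he (hs hx), ← hd (e x) ⟨x, hx, rfl⟩]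
    refine EventuallyEq.extDeriv_eq ?_
    filter_upwards [e.open_target.mem_nhds (e.map_source (hs hx))] with z hz
    exact (hpull z hz).symm
  obtain ⟨h5, h6⟩ := alt1_inj h4
  rw [← vv_dF0]
  rcases q with i | i
  · exact congrFun h5 i
  · exact congrFun h6 i

/-! ### constants -/

/-- a function with vanishing differential is locally constant -/
theorem eventually_const {f : X → ℂ} {U : Set X} (hU : IsOpen U) (hf : ∀ x ∈ U, SmAt f x)
    (hd : ∀ x ∈ U, ∀ q, DT (tq q) x f = 0) {x : X} (hx : x ∈ U) : ∀ᶠ y in 𝓝 x, f y = f x := by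
  set e := chartAt C2 x with he
  have hxs : x ∈ e.source := mem_chart_source C2 x
  -- the differential in the chart vanishes on the image of `U`
  have h1 : ∀ z ∈ e.target, e.symm z ∈ U → HasFDerivAt (𝕜 := ℝ) (fun z => f (e.symm z)) 0 z := by
    intro z hz hzU
    have hsm : SmAt f (e.symm z) := hf _ hzU
    have hdiff : DifferentiableAt ℝ (fun z => f (e.symm z)) z := by
      have h2 : At0 ∞ 0 f (e.symm z) := by
        unfold At0
        rw [LB.loc0_zero]
        exact hsm
      have h3 := h2.chart (chart_mem_atlas C2 x) (e.map_target hz)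
      rw [LB.loc0_zero, e.right_inv hz] at h3
      exact h3.differentiableAt (by simp)
    have h4 : ∀ i, dz i (fun z => f (e.symm z)) z = 0 := by
      intro i
      rw [← loc10_del0 (chart_mem_atlas C2 x) hz hdiff i]
      refine Finset.sum_eq_zero fun p _ => ?_
      have := hd _ hzU (Sum.inl p)
      rw [show del0 f (e.symm z) p = 0 from this, smul_zero]
    have h5 : ∀ i, dzb i (fun z => f (e.symm z)) z = 0 := by
      intro i
      have h6 := loc1_dbar0 (κ := 0) (chart_mem_atlas C2 x) hz (s := f)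
        (by rw [LB.loc0_zero]; exact hdiff) i
      rw [LB.loc0_zero] at h6
      change _ = dzb i (fun z => f (e.symm z)) z at h6
      rw [← h6]
      change (_ ^ (0 : ℤ)) • ∑ p, _ = _
      rw [zpow_zero, one_smul]
      refine Finset.sum_eq_zero fun p _ => ?_
      have := hd _ hzU (Sum.inr p)
      rw [dbar0_eq, show DT (tb p) (e.symm z) f = 0 from this, smul_zero]
    have h7 : fderiv ℝ (fun z => f (e.symm z)) z = 0 := by
      ext v
      rw [fderiv_eq, h4, h4, h5, h5]
      simp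
    rw [← h7]
    exact hdiff.hasFDerivAt
  -- a ball around `e x`
  have hO : IsOpen (e '' (U ∩ e.source)) :=
    e.isOpen_image_of_subset_source (hU.inter e.open_source) inter_subset_right
  obtain ⟨r, hr, hball⟩ := Metric.isOpen_iff.1 hO (e x) ⟨x, ⟨hx, hxs⟩, rfl⟩
  have h8 : ∀ z ∈ Metric.ball (e x) r, z ∈ e.target ∧ e.symm z ∈ U := by
    intro z hz
    obtain ⟨y, hy, rfl⟩ := hball hz
    exact ⟨e.map_source hy.2, by rw [e.left_inv hy.2]; exact hy.1⟩
  have h9 : ∀ z ∈ Metric.ball (e x) r, f (e.symm z) = f (e.symm (e x)) := by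
    intro z hz
    refine (convex_ball (e x) r).is_const_of_fderivWithin_eq_zero (𝕜 := ℝ)
      (f := fun z => f (e.symm z)) (fun w hw =>
        (h1 w (h8 w hw).1 (h8 w hw).2).differentiableAt.differentiableWithinAt) (fun w hw => ?_)
      hz (Metric.mem_ball_self hr)
    exact ((h1 w (h8 w hw).1 (h8 w hw).2).hasFDerivWithinAt).fderivWithin
      (Metric.isOpen_ball.uniqueDiffWithinAt hw)
  have h10 : ∀ᶠ y in 𝓝 x, e y ∈ Metric.ball (e x) r :=
    (e.continuousAt hxs).eventually (Metric.ball_mem_nhds _ hr)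
  filter_upwards [h10, e.open_source.mem_nhds hxs] with y hy hys
  have := h9 _ hy
  rwa [e.left_inv hys, e.left_inv hxs] at this

theorem const_of_preconnected {f : X → ℂ} {U : Set X} (hU : IsOpen U) (hc : IsPreconnected U)
    (hf : ∀ x ∈ U, SmAt f x) (hd : ∀ x ∈ U, ∀ q, DT (tq q) x f = 0) :
    ∃ c : ℂ, ∀ x ∈ U, f x = c := by
  rcases U.eq_empty_or_nonempty with rfl | ⟨x₀, hx₀⟩
  · exact ⟨0, by simp⟩
  refine ⟨f x₀, fun x hx => ?_⟩
  refine hc.induction₂ (fun a b => f a = f b) (fun x hx => ?_) (fun a b c _ _ _ h h' => h.trans h')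
    (fun a b _ _ h => h.symm) hx hx₀
  have h1 := (eventually_const hU hf hd hx).filter_mono (nhdsWithin_le_nhds (s := U))
  filter_upwards [h1] with y hy
  exact hy.symm

/-! ### zigzags of closed two-forms -/

/-- **Every smooth closed two-form has a zigzag** over a good family. -/
theorem exists_zig_closed {ι : Type*} {U : ι → Set X} (hU : GoodFam U) {F : TwoF X}
    (hF : F.Smooth) (hc : F.Closed) : Nonempty (Zig U F) := by
  have h1 : ∀ a, ∃ A : OneF X, (∀ x ∈ U a, OAt A x) ∧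
      ∀ x ∈ U a, ∀ q q', pr A.d x q q' = pr F x q q' := fun a =>
    exists_prim2 hF hc (hU.isOpen a) (hU.one a)
  choose A hA1 hA2 using h1
  have h2 : ∀ a b, ∃ l : X → ℂ, (∀ x ∈ U a ∩ U b, SmAt l x) ∧
      ∀ x ∈ U a ∩ U b, ∀ q, vv (A b - A a) x q = DT (tq q) x l := by
    intro a b
    rcases (U a ∩ U b).eq_empty_or_nonempty with h | h
    · exact ⟨0, by rw [h]; simp, by rw [h]; simp⟩
    · refine exists_prim1 ((hU.isOpen a).inter (hU.isOpen b)) (hU.two a b h)
        (fun x hx => (hA1 b x hx.2).sub (hA1 a x hx.1)) fun x hx q q' => ?_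
      rw [pr_d_sub (hA1 b x hx.2) (hA1 a x hx.1), hA2 b x hx.2, hA2 a x hx.1, sub_self]
  choose l hl1 hl2 using h2
  have h3 : ∀ a b c, ∃ r : ℂ, ∀ x ∈ U a ∩ U b ∩ U c, l a b x + l b c x - l a c x = r := by
    intro a b c
    have hsm : ∀ x ∈ U a ∩ U b ∩ U c, SmAt (fun x => l a b x + l b c x + (-1) * l a c x) x := by
      intro x hx
      exact ((hl1 a b x ⟨hx.1.1, hx.1.2⟩).add (hl1 b c x ⟨hx.1.2, hx.2⟩)).add
        ((SmAt.const _ _).mul (hl1 a c x ⟨hx.1.1, hx.2⟩))
    obtain ⟨r, hr⟩ := const_of_preconnected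
      (((hU.isOpen a).inter (hU.isOpen b)).inter (hU.isOpen c)) (hU.three a b c) hsm (by
        intro x hx q
        have e1 := hl1 a b x ⟨hx.1.1, hx.1.2⟩
        have e2 := hl1 b c x ⟨hx.1.2, hx.2⟩
        have e3 := hl1 a c x ⟨hx.1.1, hx.2⟩
        rw [DT_add _ (e1.dat.add e2.dat) ((DAt.const _).mul e3.dat), DT_add _ e1.dat e2.dat,
          DT_const_mul _ _ e3.dat, ← hl2 a b x ⟨hx.1.1, hx.1.2⟩, ← hl2 b c x ⟨hx.1.2, hx.2⟩,
          ← hl2 a c x ⟨hx.1.1, hx.2⟩, vv_sub, vv_sub, vv_sub]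
        ring)
    exact ⟨r, fun x hx => by rw [← hr x hx]; ring⟩
  choose r hr using h3
  exact ⟨{ om := A, l := l, r := r, sm_om := hA1, sml := fun a b x ha hb => hl1 a b x ⟨ha, hb⟩
           d_om := hA2
           dl := fun a b x ha hb q => by
             rw [← hl2 a b x ⟨ha, hb⟩, vv_sub]
             ring
           coc := fun a b c x ha hb hc => hr a b c x ⟨⟨ha, hb⟩, hc⟩ }⟩

/-- **closed two-forms are `W(r) + dθ`** -/
theorem exists_W_of_closed {ι : Type*} [Fintype ι] (S : Part X ι) (hU : GoodFam S.U) {F : TwoF X}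
    (hF : F.Smooth) (hc : F.Closed) :
    ∃ r : ι → ι → ι → ℂ, IsCoc S.U r ∧ Exact2 (F - S.W r) := by
  obtain ⟨Z⟩ := exists_zig_closed hU hF hc
  refine ⟨fun a b c => -Z.r a b c, ?_, ?_⟩
  · intro a b c d x ha hb hc hd
    have := Z.isCoc a b c d x ha hb hc hd
    linear_combination -this
  · rw [S.W_neg, sub_neg_eq_add]
    exact Z.exact S

end Vale.Agent.P267.H995
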