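import Vale.Agent.P267.H995.Ord
import Vale.Agent.P267.H338.Iface

/-!
# P267 (helper995): from numbers to the geometry of the chain of curves
-/

set_option linter.unusedSectionVars false

open scoped Manifold ContDiff Topology
open Set Filter
open Vale.Agent.P272.K (Cm)

noncomputable section

namespace Vale.Agent.P267.H995

open Vale.Agent.P267.H757 Vale.Agent.P267.H338

variable {M : Type*} [TopologicalSpace M] [ChartedSpace (Cm 2) M]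

/-- `N` has, along `φ`, exactly one zero, and this zero is simple -/
def Simple (φ : EmbP1 M) (N : M → ℝ) : Prop :=
  (∃ t₀, HasOrd (fun t => N (φ.f₀ t)) t₀ 1 ∧ ∀ x ∈ φ.image, N x = 0 → x = φ.f₀ t₀) ∨
    (HasOrd (fun t => N (φ.f₁ t)) 0 1 ∧ ∀ x ∈ φ.image, N x = 0 → x = φ.f₁ 0)

theorem HasOrd.eq_zero {u : ℂ → ℝ} {t₀ : ℂ} (h : HasOrd u t₀ 1) : u t₀ = 0 := by
  obtain ⟨k, -, -, h3⟩ := h
  rw [h3.self_of_nhds]
  simp

/-- uniform version: a parametrisation near the zero -/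
theorem Simple.exists_param {φ : EmbP1 M} {N : M → ℝ} (h : Simple φ N) :
    ∃ (c : ℂ → M) (t₀ : ℂ), (∀ t, MDifferentiableAt 𝓘(ℂ) 𝓘(ℂ, Cm 2) c t) ∧
      (∀ t, c t ∈ φ.image) ∧ HasOrd (fun t => N (c t)) t₀ 1 ∧
      (∀ x ∈ φ.image, N x = 0 → x = c t₀) ∧
      ∀ N' : M → ℝ, Simple φ N' → N' (c t₀) = 0 → HasOrd (fun t => N' (c t)) t₀ 1 := by
  rcases h with ⟨t₀, h1, h2⟩ | ⟨h1, h2⟩
  · refine ⟨φ.f₀, t₀, fun t => φ.holo₀ t, φ.mem_image_f₀, h1, h2, fun N' h' h0 => ?_⟩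
    rcases h' with ⟨t₁, h3, h4⟩ | ⟨h3, h4⟩
    · have h5 := φ.inj (h4 _ (φ.mem_image_f₀ t₀) h0)
      rwa [h5]
    · exact absurd ⟨t₀, h4 _ (φ.mem_image_f₀ t₀) h0⟩ φ.ninf
  · refine ⟨φ.f₁, 0, fun t => φ.holo₁ t, φ.mem_image_f₁, h1, h2, fun N' h' h0 => ?_⟩
    rcases h' with ⟨t₁, h3, h4⟩ | ⟨h3, h4⟩
    · exact absurd ⟨t₁, (h4 _ (φ.mem_image_f₁ 0) h0).symm⟩ φ.ninf
    · exact h3

theorem linInd {V W : Type*} [AddCommGroup V] [Module ℂ V] [TopologicalSpace V] [AddCommGroup W]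
    [Module ℂ W] [TopologicalSpace W] [IsTopologicalAddGroup W] [ContinuousConstSMul ℂ W]
    {a b : V →L[ℂ] W} {v : V}
    (h1 : a v = 0) (h2 : b v ≠ 0) (h3 : a ≠ 0) : LinearIndependent ℂ ![a, b] := by
  rw [LinearIndependent.pair_iff]
  intro x y hxy
  have h4 := DFunLike.congr_fun hxy v
  have h5 : x • a v + y • b v = 0 := h4
  rw [h1, smul_zero, zero_add] at h5
  have hy : y = 0 := (smul_eq_zero.1 h5).resolve_right h2
  refine ⟨?_, hy⟩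
  have h6 : x • a = 0 := by
    have h7 : y • b = 0 := by rw [hy]; exact zero_smul ℂ b
    rw [h7, add_zero] at hxy
    exact hxy
  exact (smul_eq_zero.1 h6).resolve_right h3

/-- the numerical input: the section `α_i` has no zero on `C_l` for `i < l - s l` and one simple zero
for `l - s l ≤ i < l` -/
structure Cnt (s : ℤ → ℕ) (C : ℤ → EmbP1 M) (N Nc : ℤ → M → ℝ) : Prop where
  s_pos : ∀ l, 1 ≤ s l
  N_norm : ∀ l, IsNormFn (Cm 2) (N l)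
  Nc_norm : ∀ l, IsNormFn (Cm 2) (Nc l)
  Nc_zero : ∀ l x, Nc l x = 0 ↔ x ∈ (C l).image
  Nc_red : ∀ l x, x ∈ (C l).image → ∃ U g φ, x ∈ U ∧ LocRep (Cm 2) (Nc l) U g φ ∧
    mfderiv 𝓘(ℂ, Cm 2) 𝓘(ℂ) g x ≠ 0
  div : ∀ l x, N l x = Nc l x * ∏ j ∈ Finset.Ico (l - s l) l, N j x
  ne : ∀ i l, i < l - s l → ∀ x ∈ (C l).image, N i x ≠ 0
  one : ∀ i l, l - s l ≤ i → i < l → Simple (C l) (N i)

namespace Cnt

variable [IsManifold 𝓘(ℂ, Cm 2) ω M]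
variable {s : ℤ → ℕ} {C : ℤ → EmbP1 M} {N Nc : ℤ → M → ℝ} (H : Cnt s C N Nc)

include H

theorem N_zero {l : ℤ} {x : M} (hx : x ∈ (C l).image) : N l x = 0 := by
  rw [H.div, (H.Nc_zero l x).2 hx, zero_mul]

theorem N_pos {l : ℤ} {x : M} (h : N l x ≠ 0) : 0 < N l x :=
  lt_of_le_of_ne ((H.N_norm l).nonneg x) h.symm

theorem disj {l j : ℤ} (hj : j < l) (hne : j ≠ l - s l) :
    Disjoint (C l).image (C j).image := by
  rw [Set.disjoint_left]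
  intro x hx hxj
  have h0 : N j x = 0 := H.N_zero hxj
  rcases lt_or_gt_of_ne hne with h | h
  · exact H.ne j l h x hx h0
  · obtain ⟨c, t₀, hc, hcm, h1, h2, h3⟩ := (H.one j l h.le hj).exists_param
    have hxc : x = c t₀ := h2 x hx h0
    have hs1 : Simple (C l) (N (j - 1)) := H.one (j - 1) l (by omega) (by omega)
    have hmem : j - 1 ∈ Finset.Ico (j - s j) j := by
      rw [Finset.mem_Ico]
      have := H.s_pos j
      omega
    -- the zero of `N (j - 1)` is the same point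
    obtain ⟨c', t₁, hc', hcm', h1', h2', h3'⟩ := hs1.exists_param
    have h4 : N (j - 1) (c' t₁) = 0 := h1'.eq_zero
    have h5 : N j (c' t₁) = 0 := by
      rw [H.div, Finset.prod_eq_zero hmem h4, mul_zero]
    have h6 : c' t₁ = c t₀ := h2 _ (hcm' t₁) h5
    have h7 : HasOrd (fun t => N (j - 1) (c t)) t₀ 1 := h3 _ hs1 (by rw [← h6, h4])
    have h8 : Nc j (c t₀) * ∏ i ∈ (Finset.Ico (j - s j) j).erase (j - 1), N i (c t₀) ≠ 0 := by
      refine h1.ne_zero (w := fun t => Nc j (c t) *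
        ∏ i ∈ (Finset.Ico (j - s j) j).erase (j - 1), N i (c t)) h7
        (Eventually.of_forall fun t => ?_) ?_
      · rw [H.div j, ← Finset.mul_prod_erase _ _ hmem]
        ring
      · refine ((H.Nc_norm j).continuous.continuousAt.comp (hc t₀).continuousAt).mul ?_
        refine tendsto_finsetProd _ fun i _ => ?_
        exact ((H.N_norm i).continuous.continuousAt.comp (hc t₀).continuousAt)
    exact (left_ne_zero_of_mul h8) ((H.Nc_zero j _).2 (by rwa [← hxc]))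

theorem prod_pos (l : ℤ) {x : M} (hx : x ∈ (C l).image) :
    0 < ∏ j ∈ Finset.Ico (l - s l - s (l - s l)) (l - s l), N j x := by
  refine Finset.prod_pos fun j hj => ?_
  rw [Finset.mem_Ico] at hj
  exact H.N_pos (H.ne j l hj.2 x hx)

/-- the crossing point and a parametrisation of `C l` there -/
theorem exists_node (l : ℤ) : ∃ (c : ℂ → M) (t₀ : ℂ),
    (∀ t, MDifferentiableAt 𝓘(ℂ) 𝓘(ℂ, Cm 2) c t) ∧ (∀ t, c t ∈ (C l).image) ∧
    (C l).image ∩ (C (l - s l)).image = {c t₀} ∧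
    HasOrd (fun t => Nc (l - s l) (c t)) t₀ 1 := by
  have hs := H.s_pos l
  obtain ⟨c, t₀, hc, hcm, h1, h2, -⟩ := (H.one (l - s l) l le_rfl (by omega)).exists_param
  refine ⟨c, t₀, hc, hcm, ?_, ?_⟩
  · apply Set.Subset.antisymm
    · rintro x ⟨hx, hx'⟩
      exact h2 x hx (H.N_zero hx')
    · rintro x rfl
      refine ⟨hcm t₀, ?_⟩
      have h3 : N (l - s l) (c t₀) = 0 := h1.eq_zero
      rw [H.div] at h3
      rw [← H.Nc_zero]
      exact (mul_eq_zero.1 h3).resolve_right (H.prod_pos l (hcm t₀)).ne'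
  · refine h1.of_mul (w := fun t => ∏ j ∈ Finset.Ico (l - s l - s (l - s l)) (l - s l), N j (c t))
      (Eventually.of_forall fun t => H.div _ _) ?_ (H.prod_pos l (hcm t₀))
    refine tendsto_finsetProd _ fun i _ => ?_
    exact ((H.N_norm i).continuous.continuousAt.comp (hc t₀).continuousAt)

theorem node (l : ℤ) : ∃ p, (C l).image ∩ (C (l - s l)).image = {p} := by
  obtain ⟨c, t₀, -, -, h, -⟩ := H.exists_node l
  exact ⟨_, h⟩

theorem transv (l : ℤ) (p : M) (hp : p ∈ (C l).image) (hp' : p ∈ (C (l - s l)).image)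
    {U : Set M} {g : M → ℂ} {φ : M → ℝ} {U' : Set M} {g' : M → ℂ} {φ' : M → ℝ} (hU : p ∈ U)
    (hU' : p ∈ U') (h : LocRep (Cm 2) (Nc l) U g φ) (h' : LocRep (Cm 2) (Nc (l - s l)) U' g' φ') :
    LinearIndependent ℂ ![mfderiv 𝓘(ℂ, Cm 2) 𝓘(ℂ) g p, mfderiv 𝓘(ℂ, Cm 2) 𝓘(ℂ) g' p] := by
  obtain ⟨c, t₀, hc, hcm, h1, h2⟩ := H.exists_node l
  have hpc : p = c t₀ := by
    have : p ∈ (C l).image ∩ (C (l - s l)).image := ⟨hp, hp'⟩
    rw [h1] at this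
    exact this
  subst hpc
  have e1 : mfderiv 𝓘(ℂ, Cm 2) 𝓘(ℂ) g (c t₀) (mfderiv 𝓘(ℂ) 𝓘(ℂ, Cm 2) c t₀ (1 : ℂ)) = 0 :=
    mfderiv_apply_eq_zero h (hc t₀) hU fun t => (H.Nc_zero l _).2 (hcm t)
  have e2 : mfderiv 𝓘(ℂ, Cm 2) 𝓘(ℂ) g' (c t₀) (mfderiv 𝓘(ℂ) 𝓘(ℂ, Cm 2) c t₀ (1 : ℂ)) ≠ 0 :=
    (hasOrd_one_iff h' (hc t₀) hU' ((H.Nc_zero _ _).2 hp')).1 h2
  have e3 : mfderiv 𝓘(ℂ, Cm 2) 𝓘(ℂ) g (c t₀) ≠ 0 := by
    obtain ⟨U₁, g₁, φ₁, k1, k2, k3⟩ := H.Nc_red l _ hp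
    exact mfderiv_ne_zero_of k2 h k1 hU ((H.Nc_zero l _).2 hp) k3
  exact linInd (V := TangentSpace 𝓘(ℂ, Cm 2) (c t₀)) (W := TangentSpace 𝓘(ℂ) (g (c t₀)))
    (a := mfderiv 𝓘(ℂ, Cm 2) 𝓘(ℂ) g (c t₀)) (b := mfderiv 𝓘(ℂ, Cm 2) 𝓘(ℂ) g' (c t₀)) e1 e2 e3

end Cnt

end Vale.Agent.P267.H995
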