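import Vale.Agent.P267.H995.Deg

/-!
# P267 (helper995): the fields `disj`, `node`, `transv` of `LineX.Chain`
-/

set_option linter.unusedSectionVars false

open scoped Manifold ContDiff Topology
open Set Filter
open Vale.Agent.P272.K (Cm)

noncomputable section

namespace Vale.Agent.P267.H995

open Vale.Agent.P267.FL Vale.Agent.P267.H158 Vale.Agent.P267.XT Vale.Agent.P267.H338
open Vale.Agent.P267.LineX Vale.Agent.P267.H757
open Vale.Agent.P267.H205.P1 (degOn)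

variable {X : Type} [TopologicalSpace X] [T2Space X] [CompactSpace X] [ChartedSpace C2 X]
  [IsManifold 𝓘(ℂ, C2) ω X] {n : ℕ} (O : BlockOut X n)

/-- the degrees in terms of the order -/
theorem deg_ord (e : Fin n × ℤ ≃ ℤ) {s : ℤ → ℕ} {C : ℤ → EmbP1 (Cov O.B.hh)}
    {Nc : ℤ → Cov O.B.hh → ℝ} (hN : ∀ l, IsNormFn C2 (Nc l))
    (hz : ∀ l x, Nc l x = 0 ↔ x ∈ (C l).image)
    (hred : ∀ l x, x ∈ (C l).image → ∃ U g φ, x ∈ U ∧ LocRep C2 (Nc l) U g φ ∧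
      mfderiv 𝓘(ℂ, C2) 𝓘(ℂ) g x ≠ 0)
    (div : ∀ l x, O.N (e.symm l) x =
      Nc l x * ∏ j ∈ Finset.Ico (l - s l) l, O.N (e.symm j) x) (l i : ℤ) :
    degOn (O.bL (e.symm i)) (reg_ba O (e.symm i)) (C l).toP1Map =
      (if l - s l ≤ i ∧ i < l then 1 else 0) - if i = l then 1 else 0 := by
  classical
  have h1 := deg_formula O (C l) (hN l) (hz l) (hred l) (b := e.symm l)
    (I := (Finset.Ico (l - s l) l).map e.symm.toEmbedding)
    (fun x => by rw [div l x, Finset.prod_map]; rfl) (e.symm i)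
  rw [h1]
  have h2 : e.symm i ∈ (Finset.Ico (l - s l) l).map e.symm.toEmbedding ↔
      (l - s l ≤ i ∧ i < l) := by
    rw [Finset.mem_map_equiv, Equiv.symm_symm, Equiv.apply_symm_apply, Finset.mem_Ico]
  simp only [h2, EmbeddingLike.apply_eq_iff_eq]

/-- **The numerical input of the geometry.** -/
theorem cnt (e : Fin n × ℤ ≃ ℤ) {s : ℤ → ℕ} (hs : ∀ l, 1 ≤ s l) {C : ℤ → EmbP1 (Cov O.B.hh)}
    {Nc : ℤ → Cov O.B.hh → ℝ} (hN : ∀ l, IsNormFn C2 (Nc l))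
    (hz : ∀ l x, Nc l x = 0 ↔ x ∈ (C l).image)
    (hred : ∀ l x, x ∈ (C l).image → ∃ U g φ, x ∈ U ∧ LocRep C2 (Nc l) U g φ ∧
      mfderiv 𝓘(ℂ, C2) 𝓘(ℂ) g x ≠ 0)
    (div : ∀ l x, O.N (e.symm l) x =
      Nc l x * ∏ j ∈ Finset.Ico (l - s l) l, O.N (e.symm j) x)
    (hne : ∀ i l, i < l → ∃ x ∈ (C l).image, O.N (e.symm i) x ≠ 0) :
    Cnt s C (fun l => O.N (e.symm l)) Nc where
  s_pos := hs
  N_norm l := isNormFn_N O _
  Nc_norm := hN
  Nc_zero := hz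
  Nc_red := hred
  div := div
  ne i l hi x hx := by
    have hsl := hs l
    have hd := deg_ord O e hN hz hred div l i
    rw [if_neg (by omega), if_neg (by omega), sub_zero] at hd
    obtain ⟨y, hy, hy0⟩ := hne i l (by omega)
    have h1 := ne_of_degOn_zero (reg_ba O (e.symm i)) (reg_b O _) (sec_b O _) (db_b O _)
      ⟨y, hy, fun h => hy0 ((N_eq_zero O _).2 h)⟩ hd x hx
    exact fun h => h1 ((N_eq_zero O _).1 h)
  one i l hi hi' := by
    have hd := deg_ord O e hN hz hred div l i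
    rw [if_pos ⟨hi, hi'⟩, if_neg (by omega), sub_zero] at hd
    obtain ⟨y, hy, hy0⟩ := hne i l hi'
    exact simple_of_degOn_one (reg_ba O (e.symm i)) (reg_b O _) (sec_b O _) (db_b O _)
      ⟨y, hy, fun h => hy0 ((N_eq_zero O _).2 h)⟩ hd

/-- the three fields `disj`, `node`, `transv` of `Chain` -/
theorem chain_fields (e : Fin n × ℤ ≃ ℤ) {s : ℤ → ℕ} (hs : ∀ l, 1 ≤ s l)
    {C : ℤ → EmbP1 (Cov O.B.hh)} {Nc : ℤ → Cov O.B.hh → ℝ} (hN : ∀ l, IsNormFn C2 (Nc l))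
    (hz : ∀ l x, Nc l x = 0 ↔ x ∈ (C l).image)
    (hred : ∀ l x, x ∈ (C l).image → ∃ U g φ, x ∈ U ∧ LocRep C2 (Nc l) U g φ ∧
      mfderiv 𝓘(ℂ, C2) 𝓘(ℂ) g x ≠ 0)
    (div : ∀ l x, O.N (e.symm l) x =
      Nc l x * ∏ j ∈ Finset.Ico (l - s l) l, O.N (e.symm j) x)
    (hne : ∀ i l, i < l → ∃ x ∈ (C l).image, O.N (e.symm i) x ≠ 0) :
    (∀ l j, j < l → j ≠ l - s l → Disjoint (C l).image (C j).image) ∧
    (∀ l, ∃ p, (C l).image ∩ (C (l - s l)).image = {p}) ∧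
    ∀ l p, p ∈ (C l).image → p ∈ (C (l - s l)).image →
      ∀ U g φ U' g' φ', p ∈ U → p ∈ U' → LocRep C2 (Nc l) U g φ →
        LocRep C2 (Nc (l - s l)) U' g' φ' →
        LinearIndependent ℂ ![mfderiv 𝓘(ℂ, C2) 𝓘(ℂ) g p, mfderiv 𝓘(ℂ, C2) 𝓘(ℂ) g' p] := by
  have H := cnt O e hs hN hz hred div hne
  exact ⟨fun l j => H.disj, H.node, fun l p hp hp' U g φ U' g' φ' hU hU' h h' =>
    H.transv l p hp hp' hU hU' h h'⟩

end Vale.Agent.P267.H995
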