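import Vale.Agent.P267.H995.Geo
import Vale.Agent.P267.H205.P1i

/-!
# P267 (helper995): sections of line bundles of degree 0 and 1 on an embedded projective line
-/

set_option linter.unusedSectionVars false

open scoped Manifold ContDiff Topology
open Set Filter
open Vale.Agent.P272.K (Cm)

noncomputable section

namespace Vale.Agent.P267.H995

open Vale.Agent.P267.FL Vale.Agent.P267.H338 Vale.Agent.P267.H205.P1

variable {M : Type*} [TopologicalSpace M] [ChartedSpace C2 M] [IsManifold 𝓘(ℂ, C2) ω M]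
variable {ι : Type} [Fintype ι] [DecidableEq ι] {L : LB M ι} {a : M → Fin 2 → ℂ}
  (ha : Reg1 ∞ 0 a) {φ : EmbP1 M} {s : M → EuclideanSpace ℂ ι} (hs : Reg0 ∞ 0 s) (hsec : L.Sec s)
  (hhol : ∀ x i, L.db0 a 0 s x i = 0) (hne : ∃ x ∈ φ.image, s x ≠ 0)

include ha hs hsec hhol hne in
theorem exists_ne_f₀ : ∃ z, s (φ.f₀ z) ≠ 0 := by
  by_contra hcon
  push Not at hcon
  have h1 := (holSec_pull L ha φ.toP1Map hs hsec hhol).eq_zero hcon
  obtain ⟨x, hx | hx, hx0⟩ := hne
  · obtain ⟨z, rfl⟩ := hx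
    exact hx0 (hcon z)
  · exact hx0 (by rw [hx]; exact h1 0)

include hs hsec hhol hne in
/-- degree zero: no zeros -/
theorem ne_of_degOn_zero (hd : degOn L ha φ.toP1Map = 0) : ∀ x ∈ φ.image, s x ≠ 0 := by
  have h1 := (holSec_pull L ha φ.toP1Map hs hsec hhol).ne_zero_of_deg
    (exists_ne_f₀ ha hs hsec hhol hne) hd
  rintro x (⟨z, rfl⟩ | rfl)
  · exact h1.1 z
  · exact h1.2 0

include hs hsec hhol hne in
/-- degree one: exactly one zero, a simple one -/
theorem simple_of_degOn_one (hd : degOn L ha φ.toP1Map = 1) : Simple φ fun x => ‖s x‖ ^ 2 := by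
  obtain ⟨s₀, s₁, hf⟩ := (pull L ha φ.toP1Map).exists_frames_deg
  have hd' : (pull L ha φ.toP1Map).deg = 1 := hd
  rw [hd'] at hf
  obtain ⟨p, hp, n, hn, h0, h1⟩ := hf.exists_poly' (holSec_pull L ha φ.toP1Map hs hsec hhol)
    (exists_ne_f₀ ha hs hsec hhol hne)
  have c0 : Continuous fun z => ‖s₀ z‖ ^ 2 := hf.sec₀.1.continuous.norm.pow 2
  have c1 : Continuous fun z => ‖s₁ z‖ ^ 2 := hf.sec₁.1.continuous.norm.pow 2
  have hsq : ∀ x, ‖s x‖ ^ 2 = 0 ↔ s x = 0 := fun x => by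
    rw [sq_eq_zero_iff, norm_eq_zero]
  rcases Nat.eq_zero_or_pos n with hn0 | hn0
  · have hdeg : p.natDegree = 1 := by omega
    left
    have hlc : p.coeff 1 ≠ 0 := by
      rw [← hdeg]
      exact Polynomial.leadingCoeff_ne_zero.2 hp
    have hpz : ∀ z, p.eval z = p.coeff 1 * (z - (-(p.coeff 0) / p.coeff 1)) := by
      intro z
      conv_lhs => rw [Polynomial.eq_X_add_C_of_natDegree_le_one hdeg.le]
      simp
      field_simp
      ring
    refine ⟨-(p.coeff 0) / p.coeff 1, ⟨fun z => ‖p.coeff 1‖ ^ 2 * ‖s₀ z‖ ^ 2,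
      (continuous_const.mul c0).continuousAt, ?_, Eventually.of_forall fun z => ?_⟩, ?_⟩
    · have := norm_pos_iff.2 hlc
      have := norm_pos_iff.2 (hf.ne₀ (-(p.coeff 0) / p.coeff 1))
      positivity
    · have h2 : s (φ.f₀ z) = p.eval z • s₀ z := h0 z
      change ‖s (φ.f₀ z)‖ ^ 2 = ‖z - _‖ ^ (2 * 1) * (‖p.coeff 1‖ ^ 2 * ‖s₀ z‖ ^ 2)
      rw [h2, hpz, norm_smul, norm_mul]
      ring
    · rintro x (⟨z, rfl⟩ | rfl) hx
      · have h2 : s (φ.f₀ z) = p.eval z • s₀ z := h0 z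
        rw [hsq, h2] at hx
        have h3 := (smul_eq_zero.1 hx).resolve_right (hf.ne₀ z)
        rw [hpz] at h3
        have h4 := (mul_eq_zero.1 h3).resolve_left hlc
        rw [sub_eq_zero.1 h4]
      · have h2 : s (φ.f₁ 0) = ((0 : ℂ) ^ n * p.reverse.eval 0) • s₁ 0 := h1 0
        rw [hsq, h2, hn0, pow_zero, one_mul, ← Polynomial.coeff_zero_eq_eval_zero,
          Polynomial.coeff_zero_reverse] at hx
        rcases smul_eq_zero.1 hx with h3 | h3
        · exact absurd h3 (Polynomial.leadingCoeff_ne_zero.2 hp)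
        · exact absurd h3 (hf.ne₁ 0)
  · have hdeg : p.natDegree = 0 := by omega
    have hn1 : n = 1 := by omega
    right
    obtain ⟨c, hc⟩ : ∃ c, p = Polynomial.C c := ⟨_, Polynomial.eq_C_of_natDegree_eq_zero hdeg⟩
    have hc0 : c ≠ 0 := by
      rintro rfl
      exact hp (by rw [hc]; simp)
    refine ⟨⟨fun z => ‖c‖ ^ 2 * ‖s₁ z‖ ^ 2, (continuous_const.mul c1).continuousAt, ?_,
      Eventually.of_forall fun z => ?_⟩, ?_⟩
    · have := norm_pos_iff.2 hc0
      have := norm_pos_iff.2 (hf.ne₁ 0)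
      positivity
    · have h2 : s (φ.f₁ z) = (z ^ n * p.reverse.eval z) • s₁ z := h1 z
      change ‖s (φ.f₁ z)‖ ^ 2 = ‖z - 0‖ ^ (2 * 1) * (‖c‖ ^ 2 * ‖s₁ z‖ ^ 2)
      rw [h2, hn1, hc, Polynomial.reverse_C, Polynomial.eval_C, norm_smul, norm_mul, pow_one]
      rw [sub_zero]
      ring
    · rintro x (⟨z, rfl⟩ | rfl) hx
      · have h2 : s (φ.f₀ z) = p.eval z • s₀ z := h0 z
        rw [hsq, h2, hc, Polynomial.eval_C] at hx
        rcases smul_eq_zero.1 hx with h3 | h3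
        · exact absurd h3 hc0
        · exact absurd h3 (hf.ne₀ z)
      · rfl

end Vale.Agent.P267.H995
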